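import Vale.Agent.P011.H228.CycD
import Vale.Agent.P011.Hey.H63.Prime

/-!
From the theorem of Albert, Brauer, Hasse and Noether over the global function fields to the
Hasse norm theorem for the separable extensions of prime degree; local norms by approximation.
-/

namespace Vale.Agent.P011.H228

open Module TensorProduct
open Vale.Agent.P011.H738 Vale.Agent.P011.H271 Vale.Agent.P011.Hey.H63

/-- Every central division algebra of degree `n` over a global function field is not split at
some place. -/
def Abhn (n : ℕ) : Prop :=
  ∀ (k : Type) [Field k] [GFF k] (D : Type) [DivisionRing D] [Algebra k D] [Algebra.IsCentral k D],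
    finrank k D = n ^ 2 → ∀ g : (v : Place k) → D →+* Matrix (Fin n) (Fin n) v.comp,
      (∀ v c, g v (algebraMap k D c) = Matrix.scalar (Fin n) (algebraMap k v.comp c)) → False

/-- The Hasse norm theorem for the Galois extensions of prime degree. -/
theorem cycN_of_abhn {p : ℕ} (hp : p.Prime) (H : Abhn p) : CycN p := by
  intro k L _ _ _ _ _ _ hd c hc
  by_contra hne
  push Not at hne
  obtain ⟨B, _, _, hB, hdim, hsplit, -⟩ := exists_division hp hd c hne
  have hg : ∀ v : Place k, Nonempty (B →ₐ[k] Matrix (Fin p) (Fin p) v.comp) :=
    fun v => hsplit v.comp (hc v)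
  refine H k B hdim (fun v => ((hg v).some : B →+* Matrix (Fin p) (Fin p) v.comp)) fun v a => ?_
  change (hg v).some (algebraMap k B a) = _
  rw [AlgHom.commutes]
  rfl

/-- The Hasse norm theorem for all separable extensions of prime degree. -/
theorem norm_of_abhn {p : ℕ} (hp : p.Prime) (H : Abhn p) {k E : Type} [Field k] [GFF k]
    [Field E] [Algebra k E] [Algebra.IsSeparable k E] (hE : finrank k E = p) (c : k)
    (h : ∀ v : Place k, LocN E c v) : ∃ e : E, Algebra.norm k e = c :=
  norm_of_local_prime hp (cycN_of_abhn hp H) hE c h

end Vale.Agent.P011.H228
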