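import Vale.Agent.P011.H228.PolyMap

/-!
# Systems of polynomial equations over global function fields

Chevalley-Warning for basis free polynomial maps over finite fields and, by comparing
coefficients, the `C₂` property of systems (Lang, Nagata) for finite extensions of `F(T)`.
-/

namespace Vale.Agent.P011.H228

open Module Polynomial

section FiniteField

variable {F : Type*} [Field F]

theorem IsPoly.exists_mvPolynomial {V : Type*} [AddCommGroup V] [Module F V] {n : ℕ}
    (b : Basis (Fin n) F V) {d : ℕ} {Φ : V → F} (hΦ : IsPoly F V F d Φ) :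
    ∃ P : MvPolynomial (Fin n) F, P.totalDegree ≤ d ∧
      ∀ x : V, MvPolynomial.eval (b.repr x) P = Φ x := by
  induction hΦ using Submodule.span_induction with
  | mem x h =>
    obtain ⟨m, h1, hd, φ, w, rfl⟩ := h
    refine ⟨(∏ i : Fin m, ∑ j, MvPolynomial.C (φ i (b j)) * MvPolynomial.X j) *
      MvPolynomial.C w, ?_, ?_⟩
    · refine (MvPolynomial.totalDegree_mul _ _).trans ?_
      rw [MvPolynomial.totalDegree_C, add_zero]
      refine (MvPolynomial.totalDegree_finsetProd _ _).trans ?_
      refine le_trans (Finset.sum_le_card_nsmul _ _ 1 ?_) (by simpa using hd)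
      intro i _
      refine MvPolynomial.totalDegree_finsetSum_le fun j _ => ?_
      refine (MvPolynomial.totalDegree_mul _ _).trans ?_
      simp
    · intro x
      simp only [map_mul, map_prod, map_sum, MvPolynomial.eval_C, MvPolynomial.eval_X,
        smul_eq_mul]
      congr 1
      refine Finset.prod_congr rfl fun i _ => ?_
      conv_rhs => rw [← b.sum_repr x, map_sum]
      refine Finset.sum_congr rfl fun j _ => ?_
      rw [map_smul, smul_eq_mul, mul_comm]
  | zero => exact ⟨0, by simp, fun x => by simp⟩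
  | add x y _ _ hx hy =>
    obtain ⟨P, hP, hP'⟩ := hx
    obtain ⟨Q, hQ, hQ'⟩ := hy
    refine ⟨P + Q, (MvPolynomial.totalDegree_add _ _).trans (max_le hP hQ), fun v => ?_⟩
    simp [hP', hQ']
  | smul a x _ hx =>
    obtain ⟨P, hP, hP'⟩ := hx
    refine ⟨a • P, (MvPolynomial.totalDegree_smul_le _ _).trans hP, fun v => ?_⟩
    simp [hP']

/-- Chevalley-Warning, basis free. -/
theorem exists_zero_of_finite [Finite F] {V : Type*} [AddCommGroup V] [Module F V]
    [FiniteDimensional F V] {ι : Type*} [Fintype ι] (d : ι → ℕ) (Φ : ι → V → F)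
    (hΦ : ∀ i, IsPoly F V F (d i) (Φ i)) (h : ∑ i, d i < finrank F V) :
    ∃ x : V, x ≠ 0 ∧ ∀ i, Φ i x = 0 := by
  classical
  have := Fintype.ofFinite F
  let b := Module.finBasis F V
  choose P hP hP' using fun i => (hΦ i).exists_mvPolynomial b
  have h1 : ∑ i, (P i).totalDegree < Fintype.card (Fin (finrank F V)) := by
    rw [Fintype.card_fin]
    exact lt_of_le_of_lt (Finset.sum_le_sum fun i _ => hP i) h
  obtain ⟨p, hp⟩ := CharP.exists F
  have hpp : p.Prime := by
    rcases CharP.char_is_prime_or_zero F p with h | h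
    · exact h
    · subst h
      have := CharP.charP_to_charZero F
      exact absurd (Finite.of_injective (Nat.cast : ℕ → F) Nat.cast_injective)
        (not_finite_iff_infinite.mpr inferInstance)
  have h2 := char_dvd_card_solutions_of_fintype_sum_lt (K := F) p h1
  let z : { x : Fin (finrank F V) → F // ∀ i, MvPolynomial.eval x (P i) = 0 } :=
    ⟨0, fun i => by
      have := hP' i 0
      rw [map_zero, (hΦ i).apply_zero] at this
      simpa using this⟩
  have h3 : 1 < Fintype.card
      { x : Fin (finrank F V) → F // ∀ i, MvPolynomial.eval x (P i) = 0 } := by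
    have h4 : 0 < Fintype.card
      { x : Fin (finrank F V) → F // ∀ i, MvPolynomial.eval x (P i) = 0 } :=
      Fintype.card_pos_iff.mpr ⟨z⟩
    exact lt_of_lt_of_le hpp.one_lt (Nat.le_of_dvd h4 h2)
  obtain ⟨y, hy⟩ := Fintype.exists_ne_of_one_lt_card h3 z
  refine ⟨b.equivFun.symm y.1, ?_, fun i => ?_⟩
  · intro h0
    apply hy
    apply Subtype.ext
    have : b.equivFun (b.equivFun.symm y.1) = 0 := by rw [h0, map_zero]
    rw [LinearEquiv.apply_symm_apply] at this
    exact this
  · rw [← hP' i]
    have : (⇑(b.repr (b.equivFun.symm y.1)) : Fin (finrank F V) → F) = y.1 := by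
      rw [← Basis.equivFun_apply, LinearEquiv.apply_symm_apply]
    rw [this]
    exact y.2 i

end FiniteField

section RationalFunctionField

variable {F : Type*} [Field F] {K : Type*} [Field K] [Algebra F[X] K] [IsFractionRing F[X] K]
  [Algebra F K] [IsScalarTower F F[X] K]
  {V : Type*} [AddCommGroup V] [Module K V] [Module F V] [IsScalarTower F K V]

/-- vectors with polynomial coordinates of degree `< L` -/
noncomputable def boxMap {σ : Type*} [Fintype σ] (b : Basis σ K V) (L : ℕ) :
    (σ → degreeLT F L) →ₗ[F] V :=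
  ∑ j, (((LinearMap.toSpanSingleton K V (b j)).restrictScalars F).comp
    ((IsScalarTower.toAlgHom F F[X] K).toLinearMap.comp
      ((degreeLT F L).subtype.comp (LinearMap.proj j))))

theorem boxMap_apply {σ : Type*} [Fintype σ] (b : Basis σ K V) (L : ℕ)
    (y : σ → degreeLT F L) :
    boxMap b L y = ∑ j, algebraMap F[X] K (y j : F[X]) • b j := by
  simp [boxMap]

theorem boxMap_injective {σ : Type*} [Fintype σ] (b : Basis σ K V) (L : ℕ) :
    Function.Injective (boxMap (F := F) b L) := by
  classical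
  rw [injective_iff_map_eq_zero]
  intro y hy
  rw [boxMap_apply] at hy
  have h := Fintype.linearIndependent_iff.mp b.linearIndependent _ hy
  funext j
  apply Subtype.ext
  have h1 := h j
  rw [← map_zero (algebraMap F[X] K)] at h1
  simpa using IsFractionRing.injective F[X] K h1

theorem natDegree_le_of_mem_degreeLT {L : ℕ} {p : F[X]} (hp : p ∈ degreeLT F L) :
    p.natDegree ≤ L := by
  rw [mem_degreeLT] at hp
  exact natDegree_le_of_degree_le hp.le

/-- the bounded denominator and the linear growth of the degree -/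
theorem IsPoly.exists_den {σ : Type*} [Fintype σ] (b : Basis σ K V) {d : ℕ}
    {Φ : V → K} (hΦ : IsPoly K V K d Φ) :
    ∃ (Q : F[X]) (D : ℕ), Q ≠ 0 ∧ ∀ (L : ℕ) (y : σ → degreeLT F L),
      ∃ p : F[X], p.natDegree ≤ d * L + D ∧
        algebraMap F[X] K Q * Φ (boxMap b L y) = algebraMap F[X] K p := by
  classical
  induction hΦ using Submodule.span_induction with
  | mem x h =>
    obtain ⟨m, h1, hd, φ, w, rfl⟩ := h
    -- denominators of the linear forms
    have hq : ∀ i : Fin m, ∃ (Q : F[X]) (a : σ → F[X]), Q ≠ 0 ∧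
        ∀ j, algebraMap F[X] K Q * φ i (b j) = algebraMap F[X] K (a j) := by
      intro i
      obtain ⟨Q, hQ⟩ := IsLocalization.exist_integer_multiples (nonZeroDivisors F[X])
        (Finset.univ : Finset σ) (fun j => φ i (b j))
      choose a ha using fun j => hQ j (Finset.mem_univ j)
      refine ⟨Q, a, nonZeroDivisors.ne_zero Q.2, fun j => ?_⟩
      rw [ha j, Algebra.smul_def]
    choose Q a hQ ha using hq
    obtain ⟨⟨wn, wd⟩, hw⟩ := IsLocalization.surj (nonZeroDivisors F[X]) w
    have hwd : (wd : F[X]) ≠ 0 := nonZeroDivisors.ne_zero wd.2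
    simp only at hw
    refine ⟨(∏ i, Q i) * wd, (∑ i, ∑ j, (a i j).natDegree) + wn.natDegree, ?_, ?_⟩
    · exact mul_ne_zero (Finset.prod_ne_zero_iff.mpr fun i _ => hQ i) hwd
    · intro L y
      refine ⟨(∏ i, ∑ j, (y j : F[X]) * a i j) * wn, ?_, ?_⟩
      · refine natDegree_mul_le.trans ?_
        have h2 : (∏ i, ∑ j, (y j : F[X]) * a i j).natDegree ≤
            ∑ i : Fin m, (L + ∑ j, (a i j).natDegree) := by
          refine (natDegree_prod_le _ _).trans ?_
          refine Finset.sum_le_sum fun i _ => ?_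
          refine natDegree_sum_le_of_forall_le _ _ fun j _ => ?_
          refine natDegree_mul_le.trans ?_
          refine Nat.add_le_add (natDegree_le_of_mem_degreeLT (y j).2) ?_
          exact Finset.single_le_sum (f := fun j => (a i j).natDegree)
            (fun _ _ => Nat.zero_le _) (Finset.mem_univ j)
        rw [Finset.sum_add_distrib] at h2
        simp only [Finset.sum_const, Finset.card_univ, Fintype.card_fin, smul_eq_mul] at h2
        have h3 : m * L ≤ d * L := Nat.mul_le_mul_right _ hd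
        omega
      · have h2 : ∀ i, algebraMap F[X] K (Q i) * φ i (boxMap b L y) =
            algebraMap F[X] K (∑ j, (y j : F[X]) * a i j) := by
          intro i
          rw [boxMap_apply, map_sum, map_sum, Finset.mul_sum]
          refine Finset.sum_congr rfl fun j _ => ?_
          rw [map_smul, smul_eq_mul, map_mul, ← ha i j]
          ring
        simp only [smul_eq_mul, map_mul, map_prod]
        rw [← hw]
        have h3 : ∏ i, algebraMap F[X] K (∑ j, (y j : F[X]) * a i j) =
            (∏ i, algebraMap F[X] K (Q i)) * ∏ i, φ i (boxMap b L y) := by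
          rw [← Finset.prod_mul_distrib]
          exact Finset.prod_congr rfl fun i _ => (h2 i).symm
        rw [h3]
        ring
  | zero =>
    exact ⟨1, 0, one_ne_zero, fun L y => ⟨0, by simp, by simp⟩⟩
  | add x y _ _ hx hy =>
    obtain ⟨Q1, D1, hQ1, h1⟩ := hx
    obtain ⟨Q2, D2, hQ2, h2⟩ := hy
    refine ⟨Q1 * Q2, Q1.natDegree + Q2.natDegree + D1 + D2, mul_ne_zero hQ1 hQ2, fun L z => ?_⟩
    obtain ⟨p1, hp1, e1⟩ := h1 L z
    obtain ⟨p2, hp2, e2⟩ := h2 L z
    refine ⟨Q2 * p1 + Q1 * p2, ?_, ?_⟩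
    · refine natDegree_add_le_of_degree_le ?_ ?_
      · refine natDegree_mul_le.trans ?_
        omega
      · refine natDegree_mul_le.trans ?_
        omega
    · rw [map_add, map_mul, map_mul, map_mul, ← e1, ← e2, Pi.add_apply]
      ring
  | smul c x _ hx =>
    obtain ⟨Q1, D1, hQ1, h1⟩ := hx
    obtain ⟨⟨wn, wd⟩, hw⟩ := IsLocalization.surj (nonZeroDivisors F[X]) c
    have hwd : (wd : F[X]) ≠ 0 := nonZeroDivisors.ne_zero wd.2
    simp only at hw
    refine ⟨wd * Q1, D1 + wn.natDegree, mul_ne_zero hwd hQ1, fun L z => ?_⟩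
    obtain ⟨p1, hp1, e1⟩ := h1 L z
    refine ⟨wn * p1, ?_, ?_⟩
    · refine natDegree_mul_le.trans ?_
      omega
    · rw [map_mul, map_mul, ← e1, ← hw, Pi.smul_apply, smul_eq_mul]
      ring

theorem finrank_degreeLT (L : ℕ) : finrank F (degreeLT F L) = L := by
  rw [(degreeLTEquiv F L).finrank_eq]
  simp

instance (L : ℕ) : FiniteDimensional F (degreeLT F L) :=
  (degreeLTEquiv F L).symm.finiteDimensional

/-- the coefficient functions -/
noncomputable def coefFun (ret : K →ₗ[F] F[X]) (Q : F[X]) (m : ℕ) : K →ₗ[F] F :=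
  ((lcoeff F m).comp ret).comp ((LinearMap.mulLeft F (algebraMap F[X] K Q)))

theorem coefFun_apply (ret : K →ₗ[F] F[X]) (Q : F[X]) (m : ℕ) (x : K) :
    coefFun ret Q m x = (ret (algebraMap F[X] K Q * x)).coeff m := rfl

theorem coef_isPoly {σ : Type*} [Fintype σ] (b : Basis σ K V) (L : ℕ)
    (ret : K →ₗ[F] F[X]) (Q : F[X]) (m : ℕ) {d : ℕ} {Φ : V → K} (hΦ : IsPoly K V K d Φ) :
    IsPoly F (σ → degreeLT F L) F d (fun y => coefFun ret Q m (Φ (boxMap b L y))) :=
  IsPoly.comp_left (hΦ.restrict (boxMap (F := F) b L)) (coefFun ret Q m)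

theorem exists_retraction : ∃ ret : K →ₗ[F] F[X], ∀ p : F[X], ret (algebraMap F[X] K p) = p := by
  have hinj : LinearMap.ker (IsScalarTower.toAlgHom F F[X] K).toLinearMap = ⊥ := by
    rw [LinearMap.ker_eq_bot]
    exact IsFractionRing.injective F[X] K
  obtain ⟨ret, hret⟩ := LinearMap.exists_leftInverse_of_injective _ hinj
  exact ⟨ret, fun p => LinearMap.congr_fun hret p⟩

theorem count_aux {ι : Type*} [Fintype ι] (d D : ι → ℕ) (N : ℕ) (h : ∑ i, d i ^ 2 < N) :
    ∑ im : (Σ i, Fin (d i * (∑ i, d i * (D i + 1) + 1) + D i + 1)), d im.1 <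
      N * (∑ i, d i * (D i + 1) + 1) := by
  obtain ⟨L, hL⟩ : ∃ L, L = ∑ i, d i * (D i + 1) + 1 := ⟨_, rfl⟩
  rw [← hL, Fintype.sum_sigma]
  simp only [Finset.sum_const, Finset.card_univ, Fintype.card_fin, smul_eq_mul]
  have h1 : ∑ i, (d i * L + D i + 1) * d i = (∑ i, d i ^ 2) * L + ∑ i, d i * (D i + 1) := by
    rw [Finset.sum_mul, ← Finset.sum_add_distrib]
    refine Finset.sum_congr rfl fun i _ => ?_
    ring
  rw [h1]
  have h2 : (∑ i, d i ^ 2 + 1) * L ≤ N * L := Nat.mul_le_mul_right _ h
  have h3 : (∑ i, d i ^ 2 + 1) * L = (∑ i, d i ^ 2) * L + L := by ring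
  have h4 : ∑ i, d i * (D i + 1) < L := hL ▸ Nat.lt_succ_self _
  omega

/-- **Lang-Nagata for systems over `F(T)`.** -/
theorem exists_zero_of_ratfunc [Finite F] [FiniteDimensional K V] {ι : Type*} [Fintype ι]
    (d : ι → ℕ) (Φ : ι → V → K) (hΦ : ∀ i, IsPoly K V K (d i) (Φ i))
    (h : ∑ i, d i ^ 2 < finrank K V) :
    ∃ x : V, x ≠ 0 ∧ ∀ i, Φ i x = 0 := by
  let b := Module.finBasis K V
  choose Q D hQ hp using fun i => (hΦ i).exists_den (F := F) b
  obtain ⟨ret, hret⟩ := exists_retraction (F := F) (K := K)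
  have hcount := count_aux d D (finrank K V) h
  obtain ⟨L, hL⟩ : ∃ L, L = ∑ i, d i * (D i + 1) + 1 := ⟨_, rfl⟩
  rw [← hL] at hcount
  have hdim : finrank F (Fin (finrank K V) → degreeLT F L) = finrank K V * L := by
    rw [Module.finrank_pi_fintype]
    simp [finrank_degreeLT]
  rw [← hdim] at hcount
  obtain ⟨y, hy0, hy⟩ := exists_zero_of_finite
    (fun im : (Σ i, Fin (d i * L + D i + 1)) => d im.1)
    (fun im y => coefFun ret (Q im.1) im.2 (Φ im.1 (boxMap b L y)))
    (fun im => coef_isPoly b L ret (Q im.1) im.2 (hΦ im.1)) hcount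
  refine ⟨boxMap b L y, ?_, fun i => ?_⟩
  · intro h0
    exact hy0 (boxMap_injective b L (by rw [h0, map_zero]))
  · obtain ⟨p, hp1, hp2⟩ := hp i L y
    have hp0 : p = 0 := by
      ext m
      rw [coeff_zero]
      by_cases hm : m < d i * L + D i + 1
      · have h5 := hy ⟨i, ⟨m, hm⟩⟩
        rw [coefFun_apply, hp2, hret] at h5
        exact h5
      · exact coeff_eq_zero_of_natDegree_lt (by omega)
    rw [hp0, map_zero] at hp2
    rcases mul_eq_zero.mp hp2 with h6 | h6
    · exfalso
      rw [← map_zero (algebraMap F[X] K)] at h6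
      exact hQ i (IsFractionRing.injective F[X] K h6)
    · exact h6

end RationalFunctionField

section FiniteExtension

/-- **Lang-Nagata for systems over a finite extension of `F(T)`** (possibly inseparable), different
degrees, basis free. -/
theorem exists_zero_of_finite_extension (F : Type*) [Field F] [Finite F] (K₀ : Type*) [Field K₀]
    [Algebra F[X] K₀] [IsFractionRing F[X] K₀] {K : Type*} [Field K]
    [Algebra K₀ K] [FiniteDimensional K₀ K]
    {V : Type*} [AddCommGroup V] [Module K V] [FiniteDimensional K V]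
    {ι : Type*} [Fintype ι] (d : ι → ℕ) (Φ : ι → V → K) (hΦ : ∀ i, IsPoly K V K (d i) (Φ i))
    (h : ∑ i, d i ^ 2 < finrank K V) :
    ∃ x : V, x ≠ 0 ∧ ∀ i, Φ i x = 0 := by
  let _ : Algebra F K₀ := ((algebraMap F[X] K₀).comp (algebraMap F F[X])).toAlgebra
  have : IsScalarTower F F[X] K₀ := IsScalarTower.of_algebraMap_eq fun _ => rfl
  let _ : Module K₀ V := Module.compHom V (algebraMap K₀ K)
  have : IsScalarTower K₀ K V := ⟨fun a b x => by
    rw [Algebra.smul_def, mul_smul]; rfl⟩
  let _ : Module F V := Module.compHom V (algebraMap F K₀)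
  have : IsScalarTower F K₀ V := ⟨fun a b x => by
    rw [Algebra.smul_def, mul_smul]; rfl⟩
  have : FiniteDimensional K₀ V := FiniteDimensional.trans K₀ K V
  let b := Module.finBasis K₀ K
  have hΨ : ∀ il : ι × Fin (finrank K₀ K),
      IsPoly K₀ V K₀ (d il.1) (fun x => b.coord il.2 (Φ il.1 x)) := fun il =>
    IsPoly.comp_left ((hΦ il.1).restrict (LinearMap.id : V →ₗ[K₀] V)) (b.coord il.2)
  have hcount : ∑ il : ι × Fin (finrank K₀ K), d il.1 ^ 2 < finrank K₀ V := by
    rw [← Module.finrank_mul_finrank K₀ K V, Fintype.sum_prod_type]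
    simp only [Finset.sum_const, Finset.card_univ, Fintype.card_fin, smul_eq_mul]
    rw [← Finset.mul_sum]
    exact Nat.mul_lt_mul_of_pos_left h Module.finrank_pos
  obtain ⟨x, hx0, hx⟩ := exists_zero_of_ratfunc (F := F) (K := K₀) (V := V)
    (fun il : ι × Fin (finrank K₀ K) => d il.1) _ hΨ hcount
  refine ⟨x, hx0, fun i => ?_⟩
  apply b.ext_elem
  intro l
  have := hx (i, l)
  simpa using this

/-- A system with values in a vector space: `Φ : V → W` of degree `≤ d`, `d ^ 2 * dim W < dim V`. -/
theorem exists_zero_map (F : Type*) [Field F] [Finite F] (K₀ : Type*) [Field K₀]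
    [Algebra F[X] K₀] [IsFractionRing F[X] K₀] {K : Type*} [Field K]
    [Algebra K₀ K] [FiniteDimensional K₀ K]
    {V : Type*} [AddCommGroup V] [Module K V] [FiniteDimensional K V]
    {W : Type*} [AddCommGroup W] [Module K W] [FiniteDimensional K W]
    {d : ℕ} {Φ : V → W} (hΦ : IsPoly K V W d Φ) (h : d ^ 2 * finrank K W < finrank K V) :
    ∃ x : V, x ≠ 0 ∧ Φ x = 0 := by
  let b := Module.finBasis K W
  obtain ⟨x, hx0, hx⟩ := exists_zero_of_finite_extension F K₀ (K := K) (V := V)
    (fun _ : Fin (finrank K W) => d) (fun i x => b.coord i (Φ x))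
    (fun i => hΦ.comp_left (b.coord i)) (by simpa [mul_comm] using h)
  refine ⟨x, hx0, b.ext_elem fun i => ?_⟩
  simpa using hx i

/-- Quadratic maps: `4 * dim W < dim V` gives an isotropic vector. -/
theorem exists_zero_bilin (F : Type*) [Field F] [Finite F] (K₀ : Type*) [Field K₀]
    [Algebra F[X] K₀] [IsFractionRing F[X] K₀] {K : Type*} [Field K]
    [Algebra K₀ K] [FiniteDimensional K₀ K]
    {V : Type*} [AddCommGroup V] [Module K V] [FiniteDimensional K V]
    {W : Type*} [AddCommGroup W] [Module K W] [FiniteDimensional K W]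
    (B : V →ₗ[K] V →ₗ[K] W) (h : 4 * finrank K W < finrank K V) :
    ∃ x : V, x ≠ 0 ∧ B x x = 0 :=
  exists_zero_map F K₀ (IsPoly.bilin B) (by simpa using h)

end FiniteExtension

end Vale.Agent.P011.H228
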