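import Mathlib

/-!
Cyclic algebras over an arbitrary field, given by a commutative subfield `L`, an automorphism `σ`
and an element `U` with `U a = σ(a) U`, `U ^ l = c`.
-/

namespace Vale.Agent.P011.H228

open Module

section Gen

variable {k L E : Type*} [Field k] [Field L] [Algebra k L] [Ring E] [Algebra k E]

/-- The map `a ↦ ∑ g (a i) U ^ i`. -/
def cycMap (l : ℕ) (g : L →ₐ[k] E) (U : E) : (Fin l → L) →ₗ[k] E where
  toFun a := ∑ i, g (a i) * U ^ (i : ℕ)
  map_add' a b := by
    simp [add_mul, Finset.sum_add_distrib]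
  map_smul' r a := by
    simp [Finset.smul_sum]

theorem cycMap_apply (l : ℕ) (g : L →ₐ[k] E) (U : E) (a : Fin l → L) :
    cycMap l g U a = ∑ i, g (a i) * U ^ (i : ℕ) := rfl

theorem cycMap_single (l : ℕ) (g : L →ₐ[k] E) (U : E) (i : Fin l) (a : L) :
    cycMap l g U (Pi.single i a) = g a * U ^ (i : ℕ) := by
  rw [cycMap_apply, Finset.sum_eq_single i]
  · rw [Pi.single_eq_same]
  · intro j _ hj
    rw [Pi.single_eq_of_ne hj, map_zero, zero_mul]
  · intro h
    exact absurd (Finset.mem_univ i) h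

/-- `U a = σ(a) U` and `U ^ l = c`. -/
structure CycData (σ : L ≃ₐ[k] L) (l : ℕ) (c : k) (g : L →ₐ[k] E) (U : E) : Prop where
  comm : ∀ a, U * g a = g (σ a) * U
  pow : U ^ l = algebraMap k E c

variable {σ : L ≃ₐ[k] L} {l : ℕ} {c : k} {g : L →ₐ[k] E} {U : E}

theorem CycData.pow_comm (h : CycData σ l c g U) (i : ℕ) (a : L) :
    U ^ i * g a = g ((σ ^ i) a) * U ^ i := by
  induction i with
  | zero => simp
  | succ i ih =>
    rw [pow_succ', mul_assoc, ih, ← mul_assoc, h.comm, mul_assoc, pow_succ' σ]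
    rfl

theorem CycData.mem (h : CycData σ l c g U) (hl : 0 < l) (m : ℕ) (y : L) :
    g y * U ^ m ∈ LinearMap.range (cycMap l g U) := by
  refine ⟨Pi.single ⟨m % l, Nat.mod_lt _ hl⟩ (algebraMap k L (c ^ (m / l)) * y), ?_⟩
  rw [cycMap_single]
  conv_rhs => rw [← Nat.div_add_mod m l, pow_add, pow_mul, h.pow, ← map_pow]
  rw [map_mul, AlgHom.commutes, ← mul_assoc]
  congr 1
  exact Algebra.commutes _ _

/-- The subalgebra generated by `g` and `U`. -/
def cycSub (h : CycData σ l c g U) (hl : 0 < l) : Subalgebra k E where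
  carrier := LinearMap.range (cycMap l g U)
  mul_mem' := by
    rintro _ _ ⟨a, rfl⟩ ⟨b, rfl⟩
    rw [cycMap_apply, cycMap_apply, Finset.sum_mul_sum]
    refine Submodule.sum_mem _ fun i _ => Submodule.sum_mem _ fun j _ => ?_
    have h1 : g (a i) * U ^ (i : ℕ) * (g (b j) * U ^ (j : ℕ)) =
        g (a i * (σ ^ (i : ℕ)) (b j)) * U ^ ((i : ℕ) + j) := by
      rw [mul_assoc, ← mul_assoc (U ^ (i : ℕ)), h.pow_comm, map_mul, pow_add]
      simp only [mul_assoc]
    rw [h1]
    exact h.mem hl _ _
  add_mem' := fun ha hb => Submodule.add_mem _ ha hb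
  algebraMap_mem' := fun r => by
    have h1 := h.mem hl 0 (algebraMap k L r)
    rwa [pow_zero, mul_one, AlgHom.commutes] at h1

theorem mem_cycSub (h : CycData σ l c g U) (hl : 0 < l) (x : E) :
    x ∈ cycSub h hl ↔ ∃ a, cycMap l g U a = x := Iff.rfl

theorem g_mem_cycSub (h : CycData σ l c g U) (hl : 0 < l) (a : L) : g a ∈ cycSub h hl := by
  have h1 := h.mem hl 0 a
  rwa [pow_zero, mul_one] at h1

theorem U_mem_cycSub (h : CycData σ l c g U) (hl : 0 < l) : U ∈ cycSub h hl := by
  have h1 := h.mem hl 1 1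
  rwa [pow_one, map_one, one_mul] at h1

end Gen

/-- `D` is the cyclic algebra `(L, σ, c)`. -/
structure IsCyc {k L D : Type*} [Field k] [Field L] [Algebra k L] [Ring D] [Algebra k D]
    (σ : L ≃ₐ[k] L) (l : ℕ) (c : k) (g : L →ₐ[k] D) (U : D) : Prop extends
    CycData σ l c g U where
  pos : 0 < l
  bij : Function.Bijective (cycMap l g U)

section Sub

variable {k L E : Type*} [Field k] [Field L] [Algebra k L] [Ring E] [Algebra k E]
  {σ : L ≃ₐ[k] L} {l : ℕ} {c : k} {g : L →ₐ[k] E} {U : E}

/-- `g` as a map to the subalgebra. -/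
def gSub (h : CycData σ l c g U) (hl : 0 < l) : L →ₐ[k] cycSub h hl :=
  g.codRestrict (cycSub h hl) (g_mem_cycSub h hl)

/-- `U` as an element of the subalgebra. -/
def uSub (h : CycData σ l c g U) (hl : 0 < l) : cycSub h hl := ⟨U, U_mem_cycSub h hl⟩

theorem coe_gSub (h : CycData σ l c g U) (hl : 0 < l) (a : L) : (gSub h hl a : E) = g a := rfl

theorem coe_uSub (h : CycData σ l c g U) (hl : 0 < l) : (uSub h hl : E) = U := rfl

theorem coe_cycMap_sub (h : CycData σ l c g U) (hl : 0 < l) (a : Fin l → L) :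
    (cycMap l (gSub h hl) (uSub h hl) a : E) = cycMap l g U a := by
  rw [cycMap_apply, cycMap_apply, AddSubmonoidClass.coe_finsetSum]
  rfl

theorem isCyc_sub (h : CycData σ l c g U) (hl : 0 < l)
    (hi : Function.Injective (cycMap l g U)) : IsCyc σ l c (gSub h hl) (uSub h hl) where
  comm a := Subtype.ext (h.comm a)
  pow := Subtype.ext h.pow
  pos := hl
  bij := by
    refine ⟨fun a b hab => hi ?_, ?_⟩
    · rw [← coe_cycMap_sub h hl, hab, coe_cycMap_sub h hl]
    · rintro ⟨x, a, rfl⟩
      exact ⟨a, Subtype.ext (coe_cycMap_sub h hl a)⟩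

end Sub

section Lift

variable {k L D E : Type*} [Field k] [Field L] [Algebra k L] [Ring D] [Algebra k D]
  [Ring E] [Algebra k E] {σ : L ≃ₐ[k] L} {l : ℕ} {c : k} {g : L →ₐ[k] D} {U : D}

/-- The universal property of a cyclic algebra. -/
theorem IsCyc.exists_lift (h : IsCyc σ l c g U) {g' : L →ₐ[k] E} {U' : E}
    (h' : CycData σ l c g' U') :
    ∃ f : D →ₐ[k] E, (∀ a, f (g a) = g' a) ∧ f U = U' := by
  have hG : CycData σ l c (g.prod g') ((U, U') : D × E) := by
    refine ⟨fun a => ?_, ?_⟩
    · exact Prod.ext (h.comm a) (h'.comm a)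
    · exact Prod.ext (by simpa using h.pow) (by simpa using h'.pow)
  set S := cycSub hG h.pos with hS
  have hfst : ∀ a, (cycMap l (g.prod g') ((U, U') : D × E) a).1 = cycMap l g U a := by
    intro a
    rw [cycMap_apply, cycMap_apply, Prod.fst_sum]
    rfl
  let p : S →ₐ[k] D := (AlgHom.fst k D E).comp S.val
  have hp : Function.Bijective p := by
    refine ⟨?_, ?_⟩
    · rw [injective_iff_map_eq_zero]
      rintro ⟨x, a, rfl⟩ hx
      have h1 : cycMap l g U a = 0 := by
        rw [← hfst]
        exact hx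
      have h2 : a = 0 := h.bij.1 (by rw [h1, map_zero])
      apply Subtype.ext
      rw [h2]
      exact map_zero _
    · intro d
      obtain ⟨a, rfl⟩ := h.bij.2 d
      exact ⟨⟨_, a, rfl⟩, hfst a⟩
  let e := AlgEquiv.ofBijective p hp
  refine ⟨((AlgHom.snd k D E).comp S.val).comp (e.symm : D →ₐ[k] S), fun a => ?_, ?_⟩
  · have h1 : e.symm (g a) = gSub hG h.pos a := by
      rw [AlgEquiv.symm_apply_eq]
      rfl
    change ((e.symm (g a) : S) : D × E).2 = g' a
    rw [h1]
    rfl
  · have h1 : e.symm U = uSub hG h.pos := by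
      rw [AlgEquiv.symm_apply_eq]
      rfl
    change ((e.symm U : S) : D × E).2 = U'
    rw [h1]
    rfl

end Lift

section Model

variable {k L : Type*} [Field k] [Field L] [Algebra k L]

/-- The quasi-periodic functions. -/
def qper (L : Type*) [Field L] [Algebra k L] (l : ℕ) (c : k) : Submodule k (ℕ → L) where
  carrier := {f | ∀ n, f (n + l) = c • f n}
  add_mem' := fun {f g} hf hg n => by
    change f (n + l) + g (n + l) = c • (f n + g n)
    rw [hf n, hg n, smul_add]
  zero_mem' := fun n => by simp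
  smul_mem' := fun r f hf n => by
    change r • f (n + l) = c • (r • f n)
    rw [hf n, smul_comm]

variable (σ : L ≃ₐ[k] L) (l : ℕ) (c : k)

/-- Multiplication by `σ ^ n (a)`. -/
def dl (hσ : σ ^ l = 1) : L →ₐ[k] Module.End k (qper L l c) :=
  AlgHom.ofLinearMap
    { toFun := fun a =>
        { toFun := fun f => ⟨fun n => (σ ^ n) a * f.1 n, fun n => by
            change (σ ^ (n + l)) a * f.1 (n + l) = c • ((σ ^ n) a * f.1 n)
            rw [pow_add, hσ, mul_one, f.2 n, mul_smul_comm]⟩
          map_add' := fun f g => Subtype.ext (funext fun n => mul_add _ _ _)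
          map_smul' := fun r f => Subtype.ext (funext fun n => mul_smul_comm _ _ _) }
      map_add' := fun a b => LinearMap.ext fun f => Subtype.ext (funext fun n => by
        change (σ ^ n) (a + b) * f.1 n = (σ ^ n) a * f.1 n + (σ ^ n) b * f.1 n
        rw [map_add, add_mul])
      map_smul' := fun r a => LinearMap.ext fun f => Subtype.ext (funext fun n => by
        change (σ ^ n) (r • a) * f.1 n = r • ((σ ^ n) a * f.1 n)
        rw [map_smul, smul_mul_assoc]) }
    (LinearMap.ext fun f => Subtype.ext (funext fun n => by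
      change (σ ^ n) 1 * f.1 n = f.1 n
      rw [map_one, one_mul]))
    (fun a b => LinearMap.ext fun f => Subtype.ext (funext fun n => by
      change (σ ^ n) (a * b) * f.1 n = (σ ^ n) a * ((σ ^ n) b * f.1 n)
      rw [map_mul, mul_assoc]))

/-- The shift. -/
def sh : Module.End k (qper L l c) where
  toFun := fun f => ⟨fun n => f.1 (n + 1), fun n => by
    change f.1 (n + l + 1) = c • f.1 (n + 1)
    rw [add_right_comm]
    exact f.2 (n + 1)⟩
  map_add' := fun _ _ => rfl
  map_smul' := fun _ _ => rfl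

theorem dl_apply (hσ : σ ^ l = 1) (a : L) (f : qper L l c) (n : ℕ) :
    (dl σ l c hσ a f).1 n = (σ ^ n) a * f.1 n := rfl

theorem sh_pow (i : ℕ) (f : qper L l c) (n : ℕ) : ((sh l c ^ i) f).1 n = f.1 (n + i) := by
  induction i generalizing f with
  | zero => rfl
  | succ i ih =>
    rw [pow_succ]
    change ((sh l c ^ i) (sh l c f)).1 n = _
    rw [ih]
    change f.1 (n + i + 1) = _
    rw [add_assoc]

theorem cycData_model (hσ : σ ^ l = 1) :
    CycData (E := Module.End k (qper L l c)) σ l c (dl σ l c hσ) (sh l c) where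
  comm a := by
    refine LinearMap.ext fun f => Subtype.ext (funext fun n => ?_)
    change (σ ^ (n + 1)) a * f.1 (n + 1) = (σ ^ n) (σ a) * f.1 (n + 1)
    rw [pow_succ]
    rfl
  pow := by
    refine LinearMap.ext fun f => Subtype.ext (funext fun n => ?_)
    rw [sh_pow, f.2 n]
    rfl

theorem injective_model (hl : 0 < l) (hσ : σ ^ l = 1) :
    Function.Injective
      (cycMap (E := Module.End k (qper L l c)) l (dl σ l c hσ) (sh l c)) := by
  rw [injective_iff_map_eq_zero]
  intro a ha
  funext i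
  let f : qper L l c := ⟨fun n => if n % l = i then algebraMap k L (c ^ (n / l)) else 0,
    fun n => by
      change (if (n + l) % l = i then algebraMap k L (c ^ ((n + l) / l)) else 0) =
        c • (if n % l = i then algebraMap k L (c ^ (n / l)) else 0)
      rw [Nat.add_mod_right, Nat.add_div_right _ hl, smul_ite, smul_zero, pow_succ', map_mul,
        Algebra.smul_def]⟩
  have h1 : (cycMap (E := Module.End k (qper L l c)) l (dl σ l c hσ) (sh l c) a f).1 0 = 0 := by
    rw [ha]
    rfl
  rw [cycMap_apply, LinearMap.sum_apply] at h1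
  have h2 : ∀ j : Fin l,
      ((dl σ l c hσ (a j) * sh l c ^ (j : ℕ) : Module.End k (qper L l c)) f).1 0 =
      if j = i then a j else 0 := by
    intro j
    change (dl σ l c hσ (a j) ((sh l c ^ (j : ℕ)) f)).1 0 = _
    rw [dl_apply, sh_pow, zero_add, pow_zero]
    change a j * (if (j : ℕ) % l = i then algebraMap k L (c ^ ((j : ℕ) / l)) else 0) = _
    rw [Nat.mod_eq_of_lt j.2, Nat.div_eq_of_lt j.2, pow_zero, map_one]
    by_cases hij : j = i
    · rw [if_pos hij, if_pos (congrArg _ hij), mul_one]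
    · rw [if_neg hij, if_neg (fun h => hij (Fin.ext h)), mul_zero]
  have h3 : (∑ j : Fin l,
      (dl σ l c hσ (a j) * sh l c ^ (j : ℕ) : Module.End k (qper L l c)) f).1 0 =
      ∑ j : Fin l,
        ((dl σ l c hσ (a j) * sh l c ^ (j : ℕ) : Module.End k (qper L l c)) f).1 0 := by
    rw [AddSubmonoidClass.coe_finsetSum, Finset.sum_apply]
  rw [h3, Finset.sum_congr rfl fun j _ => h2 j, Finset.sum_ite_eq' Finset.univ i,
    if_pos (Finset.mem_univ i)] at h1
  exact h1

end Model

/-- The cyclic algebra exists. -/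
theorem exists_isCyc {k L : Type} [Field k] [Field L] [Algebra k L] (σ : L ≃ₐ[k] L) {l : ℕ}
    (hl : 0 < l) (hσ : σ ^ l = 1) (c : k) :
    ∃ (D : Type) (_ : Ring D) (_ : Algebra k D) (g : L →ₐ[k] D) (U : D), IsCyc σ l c g U :=
  ⟨_, _, _, _, _, isCyc_sub (cycData_model σ l c hσ) hl (injective_model σ l c hl hσ)⟩

end Vale.Agent.P011.H228
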