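import Vale.Agent.P011.H228.Cyc

/-!
Cyclic algebras: simplicity, centre, dimension, the norm lemma, the division property.
-/

namespace Vale.Agent.P011.H228

open Module

section Basic

variable {k L D : Type*} [Field k] [Field L] [Algebra k L] [Ring D] [Algebra k D]
  {σ : L ≃ₐ[k] L} {l : ℕ} {c : k} {g : L →ₐ[k] D} {U : D}

/-- The coordinates of `x g(b) - g(a) x`. -/
theorem CycData.comm_map (h : CycData σ l c g U) (a : Fin l → L) (b d : L) :
    cycMap l g U a * g b - g d * cycMap l g U a =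
      cycMap l g U (fun i => a i * ((σ ^ (i : ℕ)) b - d)) := by
  rw [cycMap_apply, cycMap_apply, Finset.sum_mul, Finset.mul_sum, ← Finset.sum_sub_distrib]
  refine Finset.sum_congr rfl fun i _ => ?_
  rw [mul_assoc, h.pow_comm, mul_sub, map_sub, sub_mul, mul_comm (a i) d, map_mul, map_mul]
  simp only [mul_assoc]

theorem IsCyc.mul_U (h : IsCyc σ l c g U) (hc : c ≠ 0) : IsUnit U := by
  have h1 : IsUnit (U ^ l) := by
    rw [h.pow]
    exact (IsUnit.mk0 c hc).map _
  exact (isUnit_pow_iff h.pos.ne').1 h1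

theorem IsCyc.nontrivial (h : IsCyc σ l c g U) : Nontrivial D := by
  refine ⟨⟨cycMap l g U (Pi.single ⟨0, h.pos⟩ 1), 0, fun h0 => ?_⟩⟩
  have h1 : (Pi.single ⟨0, h.pos⟩ (1 : L) : Fin l → L) = 0 := h.bij.1 (by rw [h0, map_zero])
  have h2 := congrFun h1 ⟨0, h.pos⟩
  rw [Pi.single_eq_same] at h2
  exact one_ne_zero h2

theorem IsCyc.eq_top (h : IsCyc σ l c g U) (hc : c ≠ 0)
    (hσ : ∀ i j : Fin l, i ≠ j → ∃ b, (σ ^ (i : ℕ)) b ≠ (σ ^ (j : ℕ)) b)
    (I : TwoSidedIdeal D) : ∀ (m : ℕ) (a : Fin l → L), a ≠ 0 →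
      {i | a i ≠ 0}.ncard = m → cycMap l g U a ∈ I → I = ⊤ := by
  intro m
  induction m using Nat.strong_induction_on with
  | _ m ih =>
    intro a ha hm hI
    obtain ⟨i, hi⟩ : ∃ i, a i ≠ 0 := by
      by_contra hne
      push Not at hne
      exact ha (funext hne)
    by_cases hj : ∃ j, j ≠ i ∧ a j ≠ 0
    · obtain ⟨j, hji, hj⟩ := hj
      obtain ⟨b, hb⟩ := hσ j i hji
      refine ih _ ?_ (fun n => a n * ((σ ^ (n : ℕ)) b - (σ ^ (i : ℕ)) b)) ?_ rfl ?_
      · rw [← hm]
        refine Set.ncard_lt_ncard ?_ (Set.toFinite _)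
        refine (Set.ssubset_iff_of_subset fun n (hn : _ ≠ _) => left_ne_zero_of_mul hn).2
          ⟨i, hi, fun h0 => h0 ?_⟩
        rw [sub_self, mul_zero]
      · intro h0
        have h1 := congrFun h0 j
        rcases mul_eq_zero.1 h1 with h2 | h2
        · exact hj h2
        · exact hb (sub_eq_zero.1 h2)
      · rw [← h.comm_map]
        exact I.sub_mem (I.mul_mem_right _ _ hI) (I.mul_mem_left _ _ hI)
    · push Not at hj
      have h1 : a = Pi.single i (a i) := by
        funext j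
        by_cases hji : j = i
        · rw [hji, Pi.single_eq_same]
        · rw [Pi.single_eq_of_ne hji, hj j hji]
      rw [h1, cycMap_single] at hI
      have h2 : IsUnit (g (a i) * U ^ (i : ℕ)) :=
        ((IsUnit.mk0 _ hi).map g).mul ((h.mul_U hc).pow _)
      obtain ⟨u, hu⟩ := h2
      have h3 : (1 : D) ∈ I := by
        rw [← u.inv_mul, hu]
        exact I.mul_mem_left _ _ hI
      exact (TwoSidedIdeal.one_mem_iff I).1 h3

theorem IsCyc.isSimpleRing (h : IsCyc σ l c g U) (hc : c ≠ 0)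
    (hσ : ∀ i j : Fin l, i ≠ j → ∃ b, (σ ^ (i : ℕ)) b ≠ (σ ^ (j : ℕ)) b) : IsSimpleRing D := by
  have := h.nontrivial
  refine ⟨⟨fun I => ?_⟩⟩
  by_cases hI : I = ⊥
  · exact Or.inl hI
  · right
    obtain ⟨x, hx, hx0⟩ : ∃ x ∈ I, x ≠ 0 := by
      by_contra hne
      push Not at hne
      refine hI (le_antisymm (fun x hx => ?_) bot_le)
      rw [TwoSidedIdeal.mem_bot]
      exact hne x hx
    obtain ⟨a, rfl⟩ := h.bij.2 x
    exact h.eq_top hc hσ I _ a (fun h0 => hx0 (by rw [h0, map_zero])) rfl hx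

theorem IsCyc.isCentral (h : IsCyc σ l c g U) (hc : c ≠ 0)
    (hσ : ∀ i : Fin l, (i : ℕ) ≠ 0 → ∃ b, (σ ^ (i : ℕ)) b ≠ b)
    (hfix : ∀ a, σ a = a → a ∈ (algebraMap k L).range) : Algebra.IsCentral k D := by
  refine ⟨fun x hx => ?_⟩
  rw [Subalgebra.mem_center_iff] at hx
  obtain ⟨a, rfl⟩ := h.bij.2 x
  have h1 : ∀ (i : Fin l) b, a i * ((σ ^ (i : ℕ)) b - b) = 0 := by
    intro i b
    have h2 := h.comm_map a b b
    rw [hx (g b), sub_self] at h2
    have h3 := h.bij.1 (h2.symm.trans (map_zero _).symm)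
    exact congrFun h3 i
  have h2 : a = Pi.single ⟨0, h.pos⟩ (a ⟨0, h.pos⟩) := by
    funext i
    by_cases hi : i = ⟨0, h.pos⟩
    · rw [hi, Pi.single_eq_same]
    · rw [Pi.single_eq_of_ne hi]
      obtain ⟨b, hb⟩ := hσ i (fun h0 => hi (Fin.ext h0))
      rcases mul_eq_zero.1 (h1 i b) with h3 | h3
      · exact h3
      · exact absurd (sub_eq_zero.1 h3) hb
  have := h.nontrivial
  have h3 : cycMap l g U a = g (a ⟨0, h.pos⟩) := by
    rw [h2, cycMap_single, pow_zero, mul_one, Pi.single_eq_same]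
  have h4 : a ⟨0, h.pos⟩ ∈ (algebraMap k L).range := by
    refine hfix _ ?_
    have h5 := hx U
    rw [h3, h.comm] at h5
    exact g.toRingHom.injective ((h.mul_U hc).mul_right_cancel h5)
  obtain ⟨r, hr⟩ := h4
  rw [h3, ← hr, AlgHom.commutes]
  exact Subalgebra.algebraMap_mem _ r

theorem IsCyc.finrank_eq [FiniteDimensional k L] (h : IsCyc σ l c g U) :
    finrank k D = l * finrank k L := by
  rw [← (LinearEquiv.ofBijective _ h.bij).finrank_eq, finrank_pi_fintype, Finset.sum_const,
    Finset.card_univ, Fintype.card_fin, smul_eq_mul]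

theorem IsCyc.finite [FiniteDimensional k L] (h : IsCyc σ l c g U) : FiniteDimensional k D :=
  Module.Finite.equiv (LinearEquiv.ofBijective _ h.bij)

end Basic

section Map

variable {k L D E : Type*} [Field k] [Field L] [Algebra k L] [Ring D] [Algebra k D]
  [Ring E] [Algebra k E] {σ : L ≃ₐ[k] L} {l : ℕ} {c : k} {g : L →ₐ[k] D} {U : D}

theorem CycData.map (h : CycData σ l c g U) (f : D →ₐ[k] E) :
    CycData σ l c (f.comp g) (f U) where
  comm a := by
    change f U * f (g a) = f (g (σ a)) * f U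
    rw [← map_mul, h.comm, map_mul]
  pow := by rw [← map_pow, h.pow, AlgHom.commutes]

theorem cycMap_map (f : D →ₐ[k] E) (a : Fin l → L) :
    cycMap l (f.comp g) (f U) a = f (cycMap l g U a) := by
  rw [cycMap_apply, cycMap_apply, map_sum]
  refine Finset.sum_congr rfl fun i _ => ?_
  rw [map_mul, map_pow]
  rfl

theorem IsCyc.map (h : IsCyc σ l c g U) (f : D ≃ₐ[k] E) :
    IsCyc σ l c ((f : D →ₐ[k] E).comp g) (f U) where
  toCycData := h.toCycData.map (f : D →ₐ[k] E)
  pos := h.pos
  bij := by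
    have h1 : ⇑(cycMap l ((f : D →ₐ[k] E).comp g) (f U)) = f ∘ cycMap l g U :=
      funext fun a => cycMap_map (f : D →ₐ[k] E) a
    rw [h1]
    exact f.bijective.comp h.bij

end Map

section Norm

variable {k L V : Type*} [Field k] [Field L] [Algebra k L] [AddCommGroup V] [Module k V]
  {σ : L ≃ₐ[k] L} {l : ℕ} {c : k} {g : L →ₐ[k] Module.End k V} {U : Module.End k V}

theorem CycData.exists_prod [FiniteDimensional k L] [FiniteDimensional k V]
    (h : CycData (E := Module.End k V) σ l c g U) (hV : finrank k V = finrank k L) :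
    ∃ a : L, ∏ i ∈ Finset.range l, (σ ^ i) a = algebraMap k L c := by
  have hpos : 0 < finrank k V := by
    rw [hV]
    exact finrank_pos
  have := nontrivial_of_finrank_pos hpos
  obtain ⟨v, hv⟩ := exists_ne (0 : V)
  let m : L →ₗ[k] V :=
    { toFun := fun b => g b v
      map_add' := fun a b => by rw [map_add, LinearMap.add_apply]
      map_smul' := fun r a => by
        rw [map_smul, LinearMap.smul_apply]
        rfl }
  have hm : ∀ b, m b = g b v := fun _ => rfl
  have hinj : Function.Injective m := by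
    rw [injective_iff_map_eq_zero]
    intro b hb
    by_contra hb0
    have h1 : g b⁻¹ (g b v) = v := by
      rw [← Module.End.mul_apply, ← map_mul, inv_mul_cancel₀ hb0, map_one]
      rfl
    rw [← hm b, hb, map_zero] at h1
    exact hv h1.symm
  have hsurj : Function.Surjective m :=
    (LinearMap.injective_iff_surjective_of_finrank_eq_finrank hV.symm).1 hinj
  obtain ⟨a, ha⟩ := hsurj (U v)
  have h1 : ∀ i : ℕ, (U ^ i) v = g (∏ j ∈ Finset.range i, (σ ^ j) a) v := by
    intro i
    induction i with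
    | zero => simp
    | succ i ih =>
      rw [pow_succ', Module.End.mul_apply, ih, ← Module.End.mul_apply, h.comm,
        Module.End.mul_apply, ← ha, hm, ← Module.End.mul_apply, ← map_mul, map_prod,
        Finset.prod_range_succ', pow_zero, AlgEquiv.one_apply]
      congr 3
      refine Finset.prod_congr rfl fun j _ => ?_
      rw [pow_succ']
      rfl
  refine ⟨a, hinj ?_⟩
  rw [hm, hm, ← h1, h.pow, AlgHom.commutes]

end Norm

end Vale.Agent.P011.H228
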