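import Vale.Agent.P011.H228.CycB

/-!
Cyclic algebras over an arbitrary field: generators of a cyclic Galois group, the division
property, splitting by a field over which `c` becomes a norm.
-/

namespace Vale.Agent.P011.H228

open Module TensorProduct

section Gal

variable {k L : Type*} [Field k] [Field L] [Algebra k L]

/-- `σ` generates the Galois group of `L / k`, of order `l`. -/
structure GenData (σ : L ≃ₐ[k] L) (l : ℕ) : Prop where
  pow : σ ^ l = 1
  ne : ∀ i j : Fin l, i ≠ j → ∃ b, (σ ^ (i : ℕ)) b ≠ (σ ^ (j : ℕ)) b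
  fix : ∀ a, σ a = a → a ∈ (algebraMap k L).range
  norm : ∀ a, algebraMap k L (Algebra.norm k a) = ∏ i ∈ Finset.range l, (σ ^ i) a

theorem exists_genData [FiniteDimensional k L] [IsGalois k L] [IsCyclic (L ≃ₐ[k] L)] :
    ∃ σ : L ≃ₐ[k] L, GenData σ (finrank k L) := by
  classical
  obtain ⟨σ, hσ⟩ := IsCyclic.exists_generator (α := L ≃ₐ[k] L)
  have hord : orderOf σ = finrank k L := by
    rw [orderOf_eq_card_of_forall_mem_zpowers hσ, IsGalois.card_aut_eq_finrank]
  refine ⟨σ, ?_, ?_, ?_, ?_⟩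
  · rw [← hord, pow_orderOf_eq_one]
  · intro i j hij
    by_contra hne
    push Not at hne
    refine hij (Fin.ext ?_)
    refine pow_injOn_Iio_orderOf (x := σ) ?_ ?_ (AlgEquiv.ext hne)
    · rw [hord]
      exact i.2
    · rw [hord]
      exact j.2
  · intro a ha
    rw [RingHom.mem_range, ← Set.mem_range, IsGalois.mem_range_algebraMap_iff_fixed]
    intro τ
    obtain ⟨n, rfl⟩ := hσ τ
    have h1 : σ ∈ MulAction.stabilizer (L ≃ₐ[k] L) a := ha
    exact Subgroup.zpow_mem _ h1 n
  · intro a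
    rw [Algebra.norm_eq_prod_automorphisms, ← IsCyclic.image_range_orderOf hσ, hord,
      Finset.prod_image]
    intro i hi j hj hij
    refine pow_injOn_Iio_orderOf (x := σ) ?_ ?_ hij
    · rw [hord]
      exact Finset.mem_range.1 hi
    · rw [hord]
      exact Finset.mem_range.1 hj

theorem exists_genData_of_prime [FiniteDimensional k L] [IsGalois k L]
    (hl : (finrank k L).Prime) : ∃ σ : L ≃ₐ[k] L, GenData σ (finrank k L) := by
  have := Fact.mk hl
  have : IsCyclic (L ≃ₐ[k] L) := isCyclic_of_prime_card (IsGalois.card_aut_eq_finrank k L)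
  exact exists_genData

end Gal

/-- One by one matrices. -/
def oneMat {k Δ : Type*} [Field k] [Ring Δ] [Algebra k Δ] : Matrix (Fin 1) (Fin 1) Δ ≃ₐ[k] Δ where
  toFun M := M 0 0
  invFun a := Matrix.of fun _ _ => a
  left_inv M := by
    ext i j
    rw [Subsingleton.elim i 0, Subsingleton.elim j 0]
    rfl
  right_inv a := rfl
  map_mul' M N := by
    rw [Matrix.mul_apply, Fin.sum_univ_one]
  map_add' M N := rfl
  commutes' r := by
    rw [Matrix.algebraMap_matrix_apply, if_pos rfl]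

section Div

variable {k L D : Type} [Field k] [Field L] [Algebra k L] [Ring D] [Algebra k D]
  {σ : L ≃ₐ[k] L} {l : ℕ} {c : k} {g : L →ₐ[k] D} {U : D}

/-- A cyclic algebra of prime degree is a division algebra unless `c` is a norm. -/
theorem IsCyc.exists_div [FiniteDimensional k L] (h : IsCyc σ l c g U) (hl : l.Prime)
    (hd : finrank k L = l) (hc : c ≠ 0)
    (hσ : ∀ i j : Fin l, i ≠ j → ∃ b, (σ ^ (i : ℕ)) b ≠ (σ ^ (j : ℕ)) b)
    (hN : ∀ a : L, ∏ i ∈ Finset.range l, (σ ^ i) a ≠ algebraMap k L c) :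
    ∃ (B : Type) (_ : DivisionRing B) (_ : Algebra k B), Nonempty (D ≃ₐ[k] B) := by
  have := h.isSimpleRing hc hσ
  have := h.finite
  have : IsArtinianRing D := IsArtinianRing.of_finite k D
  obtain ⟨n, hn, Δ, _, _, _, ⟨e⟩⟩ :=
    IsSimpleRing.exists_algEquiv_matrix_divisionRing_finite k D
  have h1 : n * n * finrank k Δ = l * l := by
    have h2 := h.finrank_eq
    rw [e.toLinearEquiv.finrank_eq, finrank_matrix, Fintype.card_fin, hd] at h2
    exact h2
  have h2 : n ∣ l := by
    rw [← Nat.pow_dvd_pow_iff two_ne_zero, sq, sq]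
    exact Dvd.intro _ h1
  rcases (Nat.dvd_prime hl).1 h2 with rfl | rfl
  · exact ⟨Δ, inferInstance, inferInstance, ⟨e.trans oneMat⟩⟩
  · exfalso
    have h3 : finrank k Δ = 1 :=
      Nat.eq_of_mul_eq_mul_left (Nat.mul_pos h.pos h.pos) (by rw [h1, mul_one])
    have h4 : Function.Surjective (Algebra.ofId k Δ) := by
      have h5 := (LinearMap.injective_iff_surjective_of_finrank_eq_finrank
        (f := Algebra.linearMap k Δ) (by rw [h3, finrank_self])).1
        (FaithfulSMul.algebraMap_injective k Δ)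
      exact h5
    let e1 : k ≃ₐ[k] Δ := AlgEquiv.ofBijective (Algebra.ofId k Δ)
      ⟨FaithfulSMul.algebraMap_injective k Δ, h4⟩
    let e2 : D ≃ₐ[k] Module.End k (Fin n → k) :=
      (e.trans e1.symm.mapMatrix).trans Matrix.toLinAlgEquiv'
    obtain ⟨a, ha⟩ := (h.toCycData.map (e2 : D →ₐ[k] Module.End k (Fin n → k))).exists_prod
      (by rw [hd, finrank_fin_fun])
    exact hN a ha

end Div

section NormProd

variable {k L F : Type*} [Field k] [Field L] [Algebra k L] [CommRing F] [Algebra k F]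
  {σ : L ≃ₐ[k] L} {l : ℕ}

variable (F) in
/-- The extension of scalars of an automorphism. -/
def ext (σ : L ≃ₐ[k] L) : F ⊗[k] L →ₐ[F] F ⊗[k] L :=
  Algebra.TensorProduct.map (AlgHom.id F F) (σ : L →ₐ[k] L)

theorem ext_tmul (σ : L ≃ₐ[k] L) (a : F) (y : L) : ext F σ (a ⊗ₜ y) = a ⊗ₜ σ y := rfl

theorem ext_one : ext F (1 : L ≃ₐ[k] L) = AlgHom.id F _ := by
  refine Algebra.TensorProduct.ext' fun a b => ?_
  rfl

theorem ext_mul (σ τ : L ≃ₐ[k] L) : ext F (σ * τ) = (ext F σ).comp (ext F τ) := by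
  refine Algebra.TensorProduct.ext' fun a b => ?_
  rfl

theorem det_ne_zero (hσ : ∀ i j : Fin l, i ≠ j → ∃ b, (σ ^ (i : ℕ)) b ≠ (σ ^ (j : ℕ)) b)
    (b : Basis (Fin l) k L) :
    (Matrix.of fun r j : Fin l => (σ ^ (r : ℕ)) (b j)).det ≠ 0 := by
  intro h0
  obtain ⟨v, hv, h1⟩ := Matrix.exists_vecMul_eq_zero_iff.2 h0
  have h2 : (∑ r, v r • ((σ ^ (r : ℕ) : L ≃ₐ[k] L) : L →ₗ[k] L)) = 0 := by
    refine b.ext fun j => ?_
    rw [LinearMap.sum_apply, LinearMap.zero_apply]
    exact congrFun h1 j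
  have h3 := (linearIndependent_monoidHom L L).comp
    (fun r : Fin l => (((σ ^ (r : ℕ) : L ≃ₐ[k] L) : L →ₐ[k] L) : L →* L)) (by
      intro i j hij
      by_contra hne
      obtain ⟨b, hb⟩ := hσ i j hne
      exact hb (DFunLike.congr_fun hij b))
  rw [Fintype.linearIndependent_iff] at h3
  refine hv (funext fun r => h3 v ?_ r)
  funext y
  have h4 := LinearMap.congr_fun h2 y
  rw [LinearMap.sum_apply, LinearMap.zero_apply] at h4
  rw [Finset.sum_apply, Pi.zero_apply]
  exact h4

theorem norm_eq_prod [Nontrivial F]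
    (hσ : ∀ i j : Fin l, i ≠ j → ∃ b, (σ ^ (i : ℕ)) b ≠ (σ ^ (j : ℕ)) b)
    (b : Basis (Fin l) k L) (x : F ⊗[k] L) :
    algebraMap F (F ⊗[k] L) (Algebra.norm F x) = ∏ r : Fin l, ext F (σ ^ (r : ℕ)) x := by
  set B := b.baseChange F with hB
  set T : Matrix (Fin l) (Fin l) (F ⊗[k] L) :=
    (Matrix.of fun r j : Fin l => (σ ^ (r : ℕ)) (b j)).map
      (Algebra.TensorProduct.includeRight : L →ₐ[k] F ⊗[k] L) with hT
  have h1 : Matrix.diagonal (fun r : Fin l => ext F (σ ^ (r : ℕ)) x) * T =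
      T * (Algebra.leftMulMatrix B x).map (algebraMap F (F ⊗[k] L)) := by
    ext r j
    rw [Matrix.diagonal_mul, Matrix.mul_apply]
    have h2 : T r j = ext F (σ ^ (r : ℕ)) (B j) := by
      rw [hB, Basis.baseChange_apply]
      rfl
    rw [h2, ← map_mul, ← B.sum_repr (x * B j), map_sum]
    refine Finset.sum_congr rfl fun i _ => ?_
    rw [map_smul, Matrix.map_apply, Algebra.leftMulMatrix_eq_repr_mul, Algebra.smul_def,
      mul_comm]
    congr 1
    rw [hB, Basis.baseChange_apply]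
    rfl
  have h2 := congrArg Matrix.det h1
  have h3 : IsUnit T.det := by
    have h4 : T.det = (Algebra.TensorProduct.includeRight : L →ₐ[k] F ⊗[k] L)
        (Matrix.of fun r j : Fin l => (σ ^ (r : ℕ)) (b j)).det := by
      rw [hT]
      exact (AlgHom.map_det _ _).symm
    rw [h4]
    exact (IsUnit.mk0 _ (det_ne_zero hσ b)).map _
  rw [Matrix.det_mul, Matrix.det_mul, Matrix.det_diagonal, mul_comm] at h2
  have h4 := h3.mul_left_cancel h2
  rw [h4, Algebra.norm_eq_matrix_det B, ← RingHom.mapMatrix_apply, RingHom.map_det]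

end NormProd

end Vale.Agent.P011.H228
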