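import Vale.Agent.P011.H228.CycC

/-!
Cyclic algebras over an arbitrary field: splitting over a field where `c` is a norm; the summary
`exists_division`.
-/

namespace Vale.Agent.P011.H228

open Module TensorProduct

section Split

variable {k L F : Type*} [Field k] [Field L] [Algebra k L] [Field F] [Algebra k F]
  (σ : L ≃ₐ[k] L) {l : ℕ} {c : k}

variable (F) in
/-- Multiplication by elements of `L` on `F ⊗ L`. -/
def gT : L →ₐ[k] Module.End F (F ⊗[k] L) :=
  ((Algebra.lmul F (F ⊗[k] L)).restrictScalars k).comp Algebra.TensorProduct.includeRight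

/-- Multiplication by `x` after the extension of `σ`. -/
def uT (x : F ⊗[k] L) : Module.End F (F ⊗[k] L) :=
  Algebra.lmul F (F ⊗[k] L) x * (ext F σ).toLinearMap

theorem gT_apply (a : L) (y : F ⊗[k] L) : gT F a y = (1 ⊗ₜ a) * y := rfl

theorem uT_apply (x y : F ⊗[k] L) : uT σ x y = x * ext F σ y := rfl

theorem uT_pow (x : F ⊗[k] L) (i : ℕ) (y : F ⊗[k] L) :
    (uT σ x ^ i) y = (∏ j ∈ Finset.range i, ext F (σ ^ j) x) * ext F (σ ^ i) y := by
  induction i with
  | zero =>
    rw [pow_zero, Finset.prod_range_zero, one_mul, pow_zero, ext_one]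
    rfl
  | succ i ih =>
    rw [pow_succ', Module.End.mul_apply, ih, uT_apply, map_mul, map_prod,
      Finset.prod_range_succ', pow_zero, ext_one, AlgHom.id_apply, ← mul_assoc,
      mul_comm x]
    congr 1
    · congr 1
      refine Finset.prod_congr rfl fun j _ => ?_
      rw [pow_succ', ext_mul]
      rfl
    · rw [pow_succ' σ i, ext_mul]
      rfl

theorem cycData_split (hσ : σ ^ l = 1) (x : F ⊗[k] L)
    (hx : ∏ j ∈ Finset.range l, ext F (σ ^ j) x = algebraMap k (F ⊗[k] L) c) :
    CycData (E := Module.End F (F ⊗[k] L)) σ l c (gT F) (uT σ x) where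
  comm a := by
    refine LinearMap.ext fun y => ?_
    rw [Module.End.mul_apply, Module.End.mul_apply, uT_apply, uT_apply, gT_apply, gT_apply,
      map_mul, ext_tmul, mul_left_comm]
  pow := by
    refine LinearMap.ext fun y => ?_
    rw [uT_pow, hx, hσ, ext_one, AlgHom.id_apply, ← Algebra.smul_def]
    rfl

theorem IsCyc.exists_split {D : Type*} [Ring D] [Algebra k D] {g : L →ₐ[k] D} {U : D}
    (h : IsCyc σ l c g U) (hσ : σ ^ l = 1) (b : Basis (Fin l) k L) (x : F ⊗[k] L)
    (hx : ∏ j ∈ Finset.range l, ext F (σ ^ j) x = algebraMap k (F ⊗[k] L) c) :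
    Nonempty (D →ₐ[k] Matrix (Fin l) (Fin l) F) := by
  obtain ⟨f, _⟩ := h.exists_lift (cycData_split σ hσ x hx)
  exact ⟨((LinearMap.toMatrixAlgEquiv (b.baseChange F)).toAlgHom.restrictScalars k).comp f⟩

end Split

/-- (E1) A cyclic Galois extension `L / k` of prime degree `l` and an element `c` of `k` which is
not a norm give a central division algebra `B` of dimension `l ^ 2` over `k`; it is split by every
field `F` over `k` such that `c` is a norm from `F ⊗ L` to `F`. -/
theorem exists_division {k L : Type} [Field k] [Field L] [Algebra k L] [FiniteDimensional k L]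
    [IsGalois k L] {l : ℕ} (hl : l.Prime) (hd : finrank k L = l) (c : k)
    (hc : ∀ y : L, Algebra.norm k y ≠ c) :
    ∃ (B : Type) (_ : DivisionRing B) (_ : Algebra k B),
      Algebra.IsCentral k B ∧ finrank k B = l ^ 2 ∧
      (∀ (F : Type) [Field F] [Algebra k F],
        (∃ x : F ⊗[k] L, Algebra.norm F x = algebraMap k F c) →
          Nonempty (B →ₐ[k] Matrix (Fin l) (Fin l) F)) ∧
      (∀ (F : Type) [Field F] [Algebra k F], (∃ x : F ⊗[k] L,
        ∀ σ : L ≃ₐ[k] L, (∀ a, algebraMap k L (Algebra.norm k a) =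
          ∏ i ∈ Finset.range l, (σ ^ i) a) →
          ∏ j ∈ Finset.range l, ext F (σ ^ j) x = algebraMap k (F ⊗[k] L) c) →
          Nonempty (B →ₐ[k] Matrix (Fin l) (Fin l) F)) := by
  have hc0 : c ≠ 0 := by
    rintro rfl
    exact hc 0 Algebra.norm_zero
  obtain ⟨σ, hσ⟩ := exists_genData_of_prime (k := k) (L := L) (by rw [hd]; exact hl)
  rw [hd] at hσ
  obtain ⟨D, _, _, g, U, h⟩ := exists_isCyc σ hl.pos hσ.pow c
  obtain ⟨B, _, _, ⟨e⟩⟩ := h.exists_div hl hd hc0 hσ.ne (fun a ha => hc a (by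
    rw [← hσ.norm a] at ha
    exact (algebraMap k L).injective ha))
  have h' := h.map e
  let b : Basis (Fin l) k L := finBasisOfFinrankEq k L hd
  refine ⟨B, inferInstance, inferInstance, ?_, ?_, ?_, ?_⟩
  · refine h'.isCentral hc0 (fun i hi => ?_) hσ.fix
    obtain ⟨y, hy⟩ := hσ.ne i ⟨0, h.pos⟩ (fun h0 => hi (congrArg Fin.val h0))
    exact ⟨y, hy⟩
  · rw [h'.finrank_eq, hd, sq]
  · rintro F _ _ ⟨x, hx⟩
    refine h'.exists_split σ hσ.pow b x ?_
    rw [← Fin.prod_univ_eq_prod_range (fun j => ext F (σ ^ j) x) l, ← norm_eq_prod hσ.ne b x, hx]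
    exact (IsScalarTower.algebraMap_apply k F (F ⊗[k] L) c).symm
  · rintro F _ _ ⟨x, hx⟩
    exact h'.exists_split σ hσ.pow b x (hx σ hσ.norm)

end Vale.Agent.P011.H228
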