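import Mathlib

/-!
# Lower bounds for Euler products from counting principal ideals

`S` an infinite Dedekind domain such that in boxes of size `q ^ m` there
are `≥ c q ^ m` elements `x ≠ 0` with `#(S / x S) ≤ C q ^ m`, every ideal being generated by at most
`u` of them, and with `∑_v N_v ^ (-2)` bounded:
then for every `s ∈ (1, 2]` some finite set `T` of primes, disjoint from a given finite set, has
`∏_{v ∈ T} (1 + N_v ^ (-s) (1 - 1 / N_v)) ≥ c' / (s - 1)`.
-/

namespace Vale.Agent.P011.H228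

open Submodule

section Ideals

variable {S : Type*} [CommRing S]

/-- Multiplicativity of the ideal norm in infinite Dedekind domains. -/
theorem cardQuot_mul' [IsDedekindDomain S] [Infinite S] (I J : Ideal S) :
    cardQuot (I * J) = cardQuot I * cardQuot J :=
  UniqueFactorizationMonoid.multiplicative_of_coprime cardQuot I J (cardQuot_bot _ _)
      (fun {I J} hI => by simp [Ideal.isUnit_iff.mp hI, Ideal.mul_top])
      (fun {I} i hI =>
        have : Ideal.IsPrime I := Ideal.isPrime_of_prime hI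
        cardQuot_pow_of_prime hI.ne_zero)
      fun {I J} hIJ => cardQuot_mul_of_coprime <| Ideal.isCoprime_iff_sup_eq.mpr
        (Ideal.isUnit_iff.mp
          (hIJ (Ideal.dvd_iff_le.mpr le_sup_left) (Ideal.dvd_iff_le.mpr le_sup_right)))

variable (S) in
/-- the ideal norm as a monoid homomorphism -/
noncomputable def cq [IsDedekindDomain S] [Infinite S] : Ideal S →*₀ ℕ where
  toFun := Submodule.cardQuot
  map_mul' := cardQuot_mul'
  map_one' := by rw [Ideal.one_eq_top, cardQuot_top]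
  map_zero' := by rw [Ideal.zero_eq_bot, cardQuot_bot]

theorem cq_apply [IsDedekindDomain S] [Infinite S] (I : Ideal S) :
    cq S I = Nat.card (S ⧸ I) := rfl

end Ideals

section Euler

/-- finite Euler product, upper bound for finite sums -/
theorem sum_le_prod_euler {M : Type*} [CommMonoidWithZero M]
    [UniqueFactorizationMonoid M] [Subsingleton Mˣ] [DecidableEq M]
    (g : M →*₀ ℝ) (hg : ∀ x, 0 ≤ g x) (T : Finset M) (hT : ∀ P ∈ T, Prime P ∧ g P < 1)
    (A : Finset M) (hA : ∀ I ∈ A, I ≠ 0 ∧ ∀ P, Prime P → P ∣ I → P ∈ T) :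
    ∑ I ∈ A, g I ≤ ∏ P ∈ T, (1 - g P)⁻¹ := by
  classical
  induction T using Finset.induction_on generalizing A with
  | empty =>
    have hsub : A ⊆ {1} := by
      intro I hI
      obtain ⟨h0, h1⟩ := hA I hI
      rw [Finset.mem_singleton]
      by_contra hne
      have hnu : ¬ IsUnit I := fun h => hne (isUnit_iff_eq_one.mp h)
      obtain ⟨P, hP, hPI⟩ := WfDvdMonoid.exists_irreducible_factor hnu h0
      have := h1 P (UniqueFactorizationMonoid.irreducible_iff_prime.mp hP) hPI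
      simp at this
    calc ∑ I ∈ A, g I ≤ ∑ I ∈ ({1} : Finset M), g I :=
          Finset.sum_le_sum_of_subset_of_nonneg hsub fun i _ _ => hg i
      _ = 1 := by simp
      _ = ∏ P ∈ (∅ : Finset M), (1 - g P)⁻¹ := by simp
  | insert P T hPT ih =>
    have hPp : Prime P := (hT P (Finset.mem_insert_self _ _)).1
    have hP1 : g P < 1 := (hT P (Finset.mem_insert_self _ _)).2
    -- decomposition `I = P ^ e * J`
    have hdec : ∀ I : M, I ≠ 0 → ∃ (e : ℕ) (J : M), ¬ P ∣ J ∧ I = P ^ e * J :=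
      fun I hI => WfDvdMonoid.max_power_factor hI hPp.irreducible
    let e : M → ℕ := fun I => if h : I ≠ 0 then (hdec I h).choose else 0
    let J : M → M := fun I => if h : I ≠ 0 then (hdec I h).choose_spec.choose else 0
    have heJ : ∀ I, I ≠ 0 → ¬ P ∣ J I ∧ I = P ^ e I * J I := by
      intro I hI
      have := (hdec I hI).choose_spec.choose_spec
      simp only [e, J, dif_pos hI]
      exact this
    let E : ℕ := A.sup e
    have hfib : ∑ I ∈ A, g I = ∑ i ∈ Finset.range (E + 1), ∑ I ∈ A with e I = i, g I := by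
      rw [Finset.sum_fiberwise_of_maps_to]
      intro I hI
      rw [Finset.mem_range]
      exact Nat.lt_succ_of_le (Finset.le_sup hI)
    have hpos : 0 ≤ ∏ P ∈ T, (1 - g P)⁻¹ :=
      Finset.prod_nonneg fun Q hQ => inv_nonneg.mpr
        (sub_nonneg.mpr (hT Q (Finset.mem_insert_of_mem hQ)).2.le)
    have hbound : ∀ i ∈ Finset.range (E + 1), ∑ I ∈ A with e I = i, g I ≤
        g P ^ i * ∏ P ∈ T, (1 - g P)⁻¹ := by
      intro i _
      have h1 : ∑ I ∈ A with e I = i, g I = g P ^ i * ∑ I ∈ A with e I = i, g (J I) := by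
        rw [Finset.mul_sum]
        refine Finset.sum_congr rfl fun I hI => ?_
        rw [Finset.mem_filter] at hI
        have h2 := (heJ I (hA I hI.1).1).2
        conv_lhs => rw [h2, hI.2]
        rw [map_mul, map_pow]
      have h2 : ∑ I ∈ A with e I = i, g (J I) =
          ∑ K ∈ (Finset.filter (fun I => e I = i) A).image J, g K := by
        rw [Finset.sum_image]
        intro I hI I' hI' hJJ
        simp only [Finset.coe_filter, Set.mem_ofPred_eq] at hI hI'
        rw [(heJ I (hA I hI.1).1).2, (heJ I' (hA I' hI'.1).1).2, hI.2, hI'.2, hJJ]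
      rw [h1, h2]
      refine mul_le_mul_of_nonneg_left ?_ (pow_nonneg (hg P) i)
      refine ih (fun Q hQ => hT Q (Finset.mem_insert_of_mem hQ)) _ ?_
      intro K hK
      rw [Finset.mem_image] at hK
      obtain ⟨I, hI, rfl⟩ := hK
      rw [Finset.mem_filter] at hI
      have h3 := heJ I (hA I hI.1).1
      refine ⟨fun h0 => h3.1 (h0 ▸ dvd_zero P), fun Q hQ hQJ => ?_⟩
      have h4 : Q ∣ I := by
        rw [h3.2]
        exact Dvd.dvd.mul_left hQJ _
      rcases Finset.mem_insert.mp ((hA I hI.1).2 Q hQ h4) with h5 | h5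
      · exact absurd (h5 ▸ hQJ) h3.1
      · exact h5
    rw [hfib, Finset.prod_insert hPT]
    calc ∑ i ∈ Finset.range (E + 1), ∑ I ∈ A with e I = i, g I
        ≤ ∑ i ∈ Finset.range (E + 1), g P ^ i * ∏ P ∈ T, (1 - g P)⁻¹ :=
          Finset.sum_le_sum hbound
      _ = (∑ i ∈ Finset.range (E + 1), g P ^ i) * ∏ P ∈ T, (1 - g P)⁻¹ := by
          rw [Finset.sum_mul]
      _ ≤ (1 - g P)⁻¹ * ∏ P ∈ T, (1 - g P)⁻¹ := by
          refine mul_le_mul_of_nonneg_right ?_ hpos
          rw [← tsum_geometric_of_lt_one (hg P) hP1]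
          exact (summable_geometric_of_lt_one (hg P) hP1).sum_le_tsum _
            fun i _ => pow_nonneg (hg P) i

/-- lower bound by nested boxes -/
theorem lower_boxes {M : Type*} [DecidableEq M] {q c C s : ℝ} (hq : 1 < q) (hC : 0 < C) (hs : 0 < s) (N : M → ℝ) (hN : ∀ x, 0 < N x) (n : ℕ)
    (B : ℕ → Finset M) (hB : ∀ m, m ≤ n → c * q ^ m ≤ (B m).card)
    (hBN : ∀ m, m ≤ n → ∀ x ∈ B m, N x ≤ C * q ^ m) :
    c * C ^ (-s) * (1 - q ^ (-s)) * ∑ m ∈ Finset.range (n + 1), (q ^ (1 - s)) ^ m ≤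
      ∑ x ∈ (Finset.range (n + 1)).biUnion B, N x ^ (-s) := by
  have hq0 : 0 < q := by linarith
  have hqs : q ^ (-s) < 1 := Real.rpow_lt_one_of_one_lt_of_neg hq (by linarith)
  have hqs0 : 0 < q ^ (-s) := Real.rpow_pos_of_pos hq0 _
  set w : ℕ → ℝ := fun m => C ^ (-s) * (1 - q ^ (-s)) * (q ^ (-s)) ^ m with hw
  have hw0 : ∀ m, 0 ≤ w m := fun m => by
    simp only [hw]
    have := Real.rpow_pos_of_pos hC (-s)
    have h2 : 0 ≤ 1 - q ^ (-s) := by linarith
    positivity
  -- telescoping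
  have htel : ∀ (a b : ℕ), ∑ m ∈ Finset.Ico a b, w m ≤ C ^ (-s) * (q ^ (-s)) ^ a := by
    intro a b
    rcases le_or_gt b a with h | h
    · rw [Finset.Ico_eq_empty_of_le h, Finset.sum_empty]
      have := Real.rpow_pos_of_pos hC (-s)
      positivity
    · have h1 : ∑ m ∈ Finset.Ico a b, w m =
          C ^ (-s) * ((q ^ (-s)) ^ a - (q ^ (-s)) ^ b) := by
        simp only [hw]
        rw [← Finset.mul_sum, geom_sum_Ico' hqs.ne h.le]
        have h3 : 1 - q ^ (-s) ≠ 0 := by linarith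
        field_simp
      rw [h1]
      have h2 : 0 < C ^ (-s) := Real.rpow_pos_of_pos hC (-s)
      have h3 : 0 < (q ^ (-s)) ^ b := pow_pos hqs0 b
      nlinarith
  have key : ∀ x ∈ (Finset.range (n + 1)).biUnion B,
      ∑ m ∈ Finset.range (n + 1), (if x ∈ B m then w m else 0) ≤ N x ^ (-s) := by
    intro x hx
    rw [Finset.mem_biUnion] at hx
    obtain ⟨m', hm', hxm'⟩ := hx
    have hex : ∃ m, m ∈ Finset.range (n + 1) ∧ x ∈ B m := ⟨m', hm', hxm'⟩
    classical
    set m0 := Nat.find hex with hm0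
    have hm0s := Nat.find_spec hex
    have h1 : ∑ m ∈ Finset.range (n + 1), (if x ∈ B m then w m else 0) ≤
        ∑ m ∈ Finset.Ico m0 (n + 1), w m := by
      rw [← Finset.sum_filter]
      refine Finset.sum_le_sum_of_subset_of_nonneg ?_ fun i _ _ => hw0 i
      intro m hm
      rw [Finset.mem_filter] at hm
      rw [Finset.mem_Ico]
      exact ⟨Nat.find_min' hex hm, Finset.mem_range.mp hm.1⟩
    refine h1.trans ((htel _ _).trans ?_)
    have h2 : N x ≤ C * q ^ m0 :=
      hBN m0 (Nat.lt_succ_iff.mp (Finset.mem_range.mp hm0s.1)) x hm0s.2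
    have h3 : C ^ (-s) * (q ^ (-s)) ^ m0 = (C * q ^ m0) ^ (-s) := by
      rw [Real.mul_rpow hC.le (pow_nonneg hq0.le _)]
      congr 1
      rw [← Real.rpow_natCast, ← Real.rpow_natCast, ← Real.rpow_mul hq0.le,
        ← Real.rpow_mul hq0.le, mul_comm]
    rw [h3]
    exact Real.rpow_le_rpow_of_nonpos (hN x) h2 (by linarith)
  calc c * C ^ (-s) * (1 - q ^ (-s)) * ∑ m ∈ Finset.range (n + 1), (q ^ (1 - s)) ^ m
      = ∑ m ∈ Finset.range (n + 1), w m * (c * q ^ m) := by
        rw [Finset.mul_sum]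
        refine Finset.sum_congr rfl fun m _ => ?_
        simp only [hw]
        have : q ^ (1 - s) = q ^ (-s) * q := by
          rw [sub_eq_add_neg, add_comm, Real.rpow_add hq0, Real.rpow_one]
        rw [this, mul_pow]
        ring
    _ ≤ ∑ m ∈ Finset.range (n + 1), w m * ((B m).card : ℝ) := by
        refine Finset.sum_le_sum fun m hm => ?_
        exact mul_le_mul_of_nonneg_left (hB m (Nat.lt_succ_iff.mp (Finset.mem_range.mp hm)))
          (hw0 m)
    _ = ∑ m ∈ Finset.range (n + 1), ∑ x ∈ (Finset.range (n + 1)).biUnion B,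
          (if x ∈ B m then w m else 0) := by
        refine Finset.sum_congr rfl fun m hm => ?_
        rw [← Finset.sum_filter, Finset.sum_const, nsmul_eq_mul, mul_comm]
        congr 2
        congr 1
        ext x
        simp only [Finset.mem_filter, Finset.mem_biUnion]
        exact ⟨fun h => ⟨⟨m, hm, h⟩, h⟩, fun h => h.2⟩
    _ = ∑ x ∈ (Finset.range (n + 1)).biUnion B, ∑ m ∈ Finset.range (n + 1),
          (if x ∈ B m then w m else 0) := Finset.sum_comm
    _ ≤ ∑ x ∈ (Finset.range (n + 1)).biUnion B, N x ^ (-s) := Finset.sum_le_sum key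

/-- `1 - x ≥ exp (-2 x)` on `[0, 1/2]`. -/
theorem exp_neg_two_mul_le {x : ℝ} (h0 : 0 ≤ x) (h1 : x ≤ 1 / 2) :
    Real.exp (-(2 * x)) ≤ 1 - x := by
  have h2 : 0 < 1 + 2 * x := by linarith
  have h3 : 1 + 2 * x ≤ Real.exp (2 * x) := by
    have := Real.add_one_le_exp (2 * x)
    linarith
  rw [Real.exp_neg]
  calc (Real.exp (2 * x))⁻¹ ≤ (1 + 2 * x)⁻¹ := inv_anti₀ h2 h3
    _ ≤ 1 - x := by
      rw [inv_le_iff_one_le_mul₀ h2]
      nlinarith

/-- comparison of the Euler factors -/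
theorem factor_le {N s : ℝ} (hN : 2 ≤ N) (hs : 1 ≤ s) :
    (1 - N ^ (-s))⁻¹ * Real.exp (-(4 * N ^ (-2 : ℝ))) ≤ 1 + N ^ (-s) * (1 - 1 / N) := by
  have hN0 : 0 < N := by linarith
  have ha : N ^ (-s) ≤ 1 / N := by
    rw [one_div, ← Real.rpow_neg_one]
    exact Real.rpow_le_rpow_of_exponent_le (by linarith) (by linarith)
  have ha0 : 0 < N ^ (-s) := Real.rpow_pos_of_pos hN0 _
  set a := N ^ (-s) with hadef
  have h2 : N ^ (-2 : ℝ) = 1 / N ^ 2 := by
    rw [Real.rpow_neg hN0.le, one_div]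
    norm_num
  have hN2 : 1 / N ≤ 1 / 2 := one_div_le_one_div_of_le (by norm_num) hN
  have hb : 1 / N ^ 2 = (1 / N) * (1 / N) := by
    rw [one_div_mul_one_div, sq]
  have h1a : 0 < 1 - a := by linarith
  have hexp : Real.exp (-(4 * N ^ (-2 : ℝ))) ≤ 1 - 2 * (1 / N ^ 2) := by
    have h4 : 2 * (1 / N ^ 2) ≤ 1 / 2 := by
      rw [hb]
      nlinarith [one_div_pos.mpr hN0]
    have := exp_neg_two_mul_le (x := 2 * (1 / N ^ 2)) (by positivity) h4
    rw [h2]
    convert this using 2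
    ring
  rw [inv_mul_le_iff₀ h1a]
  refine hexp.trans ?_
  rw [hb]
  have hi : 0 < 1 / N := one_div_pos.mpr hN0
  set b := 1 / N with hbdef
  nlinarith [mul_nonneg ha0.le (sub_nonneg.mpr ha), mul_nonneg hi.le (sub_nonneg.mpr ha),
    mul_pos ha0 hi, mul_nonneg ha0.le ha0.le]

end Euler

section Main

open UniqueFactorizationMonoid

variable {S : Type*} [CommRing S] [IsDedekindDomain S] [Infinite S]

/-- `N(I) ^ (-s)` as a monoid homomorphism. -/
noncomputable def npow (s : ℝ) (hs : s ≠ 0) : Ideal S →*₀ ℝ where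
  toFun I := (cq S I : ℝ) ^ (-s)
  map_mul' I J := by
    rw [map_mul, Nat.cast_mul, Real.mul_rpow (Nat.cast_nonneg _) (Nat.cast_nonneg _)]
  map_one' := by
    rw [map_one, Nat.cast_one, Real.one_rpow]
  map_zero' := by
    rw [map_zero, Nat.cast_zero, Real.zero_rpow (neg_ne_zero.mpr hs)]

theorem npow_apply (s : ℝ) (hs : s ≠ 0) (I : Ideal S) :
    npow s hs I = (cq S I : ℝ) ^ (-s) := rfl

theorem two_le_cq (hfin : ∀ I : Ideal S, I ≠ ⊥ → Finite (S ⧸ I)) {P : Ideal S}
    (hP : P.IsPrime) (hP0 : P ≠ ⊥) : 2 ≤ cq S P := by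
  have := hfin P hP0
  have h0 : cq S P ≠ 0 := by
    rw [cq_apply]
    exact Nat.card_pos.ne'
  have h1 : cq S P ≠ 1 := fun h => hP.ne_top (Submodule.cardQuot_eq_one_iff.mp h)
  omega

/-- **Lower bound of Euler products from counting.** -/
theorem euler_lower [DecidableEq (Ideal S)] (hfin : ∀ I : Ideal S, I ≠ ⊥ → Finite (S ⧸ I))
    {q c C Bd : ℝ} (hq : 1 < q) (hc : 0 < c) (hC : 1 ≤ C) (B : ℕ → Finset S) {u : ℕ} (hu0 : 0 < u)
    (hu : ∀ m, ∀ x ∈ B m, ((B m).filter fun y => Ideal.span {y} = Ideal.span {x}).card ≤ u)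
    (hB0 : ∀ m, ∀ x ∈ B m, x ≠ 0) (hBc : ∀ m, c * q ^ m ≤ (B m).card)
    (hBN : ∀ m, ∀ x ∈ B m, (cq S (Ideal.span {x}) : ℝ) ≤ C * q ^ m)
    (hsq : ∀ T : Finset (Ideal S), (∀ P ∈ T, P.IsPrime ∧ P ≠ ⊥) →
      ∑ P ∈ T, (cq S P : ℝ) ^ (-2 : ℝ) ≤ Bd) (V₀ : Finset (Ideal S)) :
    ∃ c' : ℝ, 0 < c' ∧ ∀ s : ℝ, 1 < s → s ≤ 2 → ∃ T : Finset (Ideal S),
      (∀ P ∈ T, P.IsPrime ∧ P ≠ ⊥ ∧ P ∉ V₀) ∧
      c' / (s - 1) ≤ ∏ P ∈ T, (1 + (cq S P : ℝ) ^ (-s) * (1 - 1 / (cq S P : ℝ))) := by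
  have hur : (0 : ℝ) < u := by exact_mod_cast hu0
  have hlq : 0 < Real.log q := Real.log_pos hq
  have hq0 : 0 < q := by linarith
  have hqi : q⁻¹ < 1 := inv_lt_one_of_one_lt₀ hq
  set c1 : ℝ := (c / u) * C ^ (-2 : ℝ) * (1 - q⁻¹) * (1 / (2 * Real.log q)) with hc1
  have hc1p : 0 < c1 := by
    have : 0 < 1 - q⁻¹ := by linarith
    have h2 : 0 < C ^ (-2 : ℝ) := Real.rpow_pos_of_pos (by linarith) _
    positivity
  refine ⟨c1 * Real.exp (-(4 * Bd)) * (1 / 2) ^ V₀.card, by positivity, fun s hs1 hs2 => ?_⟩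
  have hs0 : 0 < s := by linarith
  -- the ideals
  set A' : ℕ → Finset (Ideal S) := fun m => (B m).image fun x => Ideal.span {x} with hA'
  have hA'c : ∀ m, c / u * q ^ m ≤ (A' m).card := by
    intro m
    have h1 : (B m).card ≤ u * (A' m).card := by
      refine Finset.card_le_mul_card_image (B m) u fun I hI => ?_
      obtain ⟨x, hx, rfl⟩ := Finset.mem_image.mp hI
      exact hu m x hx
    have h3 : c * q ^ m ≤ u * ((A' m).card : ℝ) :=
      (hBc m).trans (by exact_mod_cast h1)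
    rw [div_mul_eq_mul_div, div_le_iff₀ hur]
    linarith
  -- large `n`
  have hr0 : 0 < q ^ (1 - s) := Real.rpow_pos_of_pos hq0 _
  have hr1 : q ^ (1 - s) < 1 := Real.rpow_lt_one_of_one_lt_of_neg hq (by linarith)
  obtain ⟨n, hn⟩ := exists_pow_lt_of_lt_one (show (0 : ℝ) < 1 / 2 by norm_num) hr1
  have hgeom : 1 / (2 * Real.log q) / (s - 1) ≤
      ∑ m ∈ Finset.range (n + 1), (q ^ (1 - s)) ^ m := by
    rw [geom_sum_eq hr1.ne, show ((q ^ (1 - s)) ^ (n + 1) - 1) / (q ^ (1 - s) - 1) =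
      (1 - (q ^ (1 - s)) ^ (n + 1)) / (1 - q ^ (1 - s)) by rw [← neg_div_neg_eq, neg_sub, neg_sub]]
    have h1 : 1 - q ^ (1 - s) ≤ (s - 1) * Real.log q := by
      have h2 : q ^ (1 - s) = Real.exp (Real.log q * (1 - s)) := Real.rpow_def_of_pos hq0 _
      have h3 := Real.add_one_le_exp (Real.log q * (1 - s))
      rw [h2]
      nlinarith
    have h2 : (q ^ (1 - s)) ^ (n + 1) ≤ 1 / 2 := by
      rw [pow_succ]
      have := mul_le_of_le_one_right (pow_nonneg hr0.le n) hr1.le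
      linarith
    rw [div_div]
    have h4 : 0 < 1 - q ^ (1 - s) := by linarith
    have h5 : 0 < s - 1 := by linarith
    rw [div_le_div_iff₀ (by positivity) h4]
    nlinarith
  have hlow := lower_boxes (M := Ideal S) (c := c / u) (C := C) hq (by linarith) hs0
    (fun I => if I = ⊥ then 1 else (cq S I : ℝ)) (fun I => by
      split_ifs with h
      · exact one_pos
      · have := hfin I h
        rw [cq_apply]
        exact_mod_cast Nat.card_pos) n A' (fun m _ => hA'c m) (fun m _ I hI => by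
      obtain ⟨x, hx, rfl⟩ := Finset.mem_image.mp hI
      have h1 : Ideal.span {x} ≠ ⊥ := by
        rw [Ne, Ideal.span_singleton_eq_bot]
        exact hB0 m x hx
      rw [if_neg h1]
      exact hBN m x hx)
  set A := (Finset.range (n + 1)).biUnion A' with hA
  have hA0 : ∀ I ∈ A, I ≠ ⊥ := by
    intro I hI
    obtain ⟨m, _, hI'⟩ := Finset.mem_biUnion.mp hI
    obtain ⟨x, hx, rfl⟩ := Finset.mem_image.mp hI'
    rw [Ne, Ideal.span_singleton_eq_bot]
    exact hB0 m x hx
  set T' : Finset (Ideal S) := A.biUnion fun I => (normalizedFactors I).toFinset with hT'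
  have hT'P : ∀ P ∈ T', P.IsPrime ∧ P ≠ ⊥ := by
    intro P hP
    obtain ⟨I, hI, hPI⟩ := Finset.mem_biUnion.mp hP
    rw [Multiset.mem_toFinset] at hPI
    have h1 := (Ideal.mem_normalizedFactors_iff (hA0 I hI)).mp hPI
    refine ⟨h1.1, fun h => ?_⟩
    rw [h, le_bot_iff] at h1
    exact hA0 I hI h1.2
  have hg2 : ∀ P ∈ T', (2 : ℝ) ≤ cq S P := fun P hP => by
    exact_mod_cast two_le_cq hfin (hT'P P hP).1 (hT'P P hP).2
  have hgs : ∀ P ∈ T', npow s hs0.ne' P ≤ 1 / 2 := by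
    intro P hP
    rw [npow_apply]
    have h2 := hg2 P hP
    calc (cq S P : ℝ) ^ (-s) ≤ (cq S P : ℝ) ^ (-1 : ℝ) :=
          Real.rpow_le_rpow_of_exponent_le (by linarith) (by linarith)
      _ = 1 / (cq S P : ℝ) := by rw [Real.rpow_neg_one, one_div]
      _ ≤ 1 / 2 := one_div_le_one_div_of_le (by norm_num) h2
  have hg0 : ∀ I : Ideal S, 0 ≤ npow s hs0.ne' I := fun I => by
    rw [npow_apply]
    exact Real.rpow_nonneg (Nat.cast_nonneg _) _
  have hup := sum_le_prod_euler (npow (S := S) s hs0.ne') hg0 T'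
    (fun P hP => ⟨Ideal.prime_of_isPrime (hT'P P hP).2 (hT'P P hP).1, by
      have := hgs P hP
      linarith⟩) A (fun I hI => ⟨hA0 I hI, fun P hP hPI => by
        rw [hT', Finset.mem_biUnion]
        refine ⟨I, hI, ?_⟩
        rw [Multiset.mem_toFinset, Ideal.mem_normalizedFactors_iff (hA0 I hI)]
        exact ⟨Ideal.isPrime_of_prime hP, Ideal.dvd_iff_le.mp hPI⟩⟩)
  have hsumeq : ∑ x ∈ A, (if x = ⊥ then 1 else (cq S x : ℝ)) ^ (-s) =
      ∑ I ∈ A, npow s hs0.ne' I := by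
    refine Finset.sum_congr rfl fun I hI => ?_
    rw [if_neg (hA0 I hI), npow_apply]
  rw [hsumeq] at hlow
  have hlow2 : c1 / (s - 1) ≤ ∏ P ∈ T', (1 - npow s hs0.ne' P)⁻¹ := by
    refine le_trans ?_ (hlow.trans hup)
    have h1 : C ^ (-2 : ℝ) ≤ C ^ (-s) :=
      Real.rpow_le_rpow_of_exponent_le hC (by linarith)
    have h2 : 1 - q⁻¹ ≤ 1 - q ^ (-s) := by
      have : q ^ (-s) ≤ q ^ (-1 : ℝ) :=
        Real.rpow_le_rpow_of_exponent_le hq.le (by linarith)
      rw [Real.rpow_neg_one] at this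
      linarith
    have h3 : 0 < 1 - q⁻¹ := by linarith
    have h4 : 0 < C ^ (-2 : ℝ) := Real.rpow_pos_of_pos (by linarith) _
    have h5 : 0 < s - 1 := by linarith
    calc c1 / (s - 1) = (c / u) * C ^ (-2 : ℝ) * (1 - q⁻¹) *
          (1 / (2 * Real.log q) / (s - 1)) := by rw [hc1]; ring
      _ ≤ (c / u) * C ^ (-s) * (1 - q ^ (-s)) *
          ∑ m ∈ Finset.range (n + 1), (q ^ (1 - s)) ^ m := by
        have h6 : 0 ≤ 1 - q ^ (-s) := h3.le.trans h2
        have h7 : 0 ≤ C ^ (-s) := h4.le.trans h1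
        have h8 : 0 ≤ c / u := by positivity
        refine mul_le_mul (mul_le_mul (mul_le_mul_of_nonneg_left h1 h8) h2 h3.le
          (mul_nonneg h8 h7)) hgeom (by positivity) (mul_nonneg (mul_nonneg h8 h7) h6)
  refine ⟨T'.filter (· ∉ V₀), fun P hP => ?_, ?_⟩
  · rw [Finset.mem_filter] at hP
    exact ⟨(hT'P P hP.1).1, (hT'P P hP.1).2, hP.2⟩
  · have hinv0 : ∀ P ∈ T', 0 < (1 - npow s hs0.ne' P)⁻¹ := fun P hP => by
      have := hgs P hP
      exact inv_pos.mpr (by linarith)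
    have hsplit : ∏ P ∈ T', (1 - npow s hs0.ne' P)⁻¹ ≤
        (∏ P ∈ T'.filter (· ∉ V₀), (1 - npow s hs0.ne' P)⁻¹) * 2 ^ V₀.card := by
      rw [← Finset.prod_filter_mul_prod_filter_not T' (· ∉ V₀)]
      refine mul_le_mul_of_nonneg_left ?_ (Finset.prod_nonneg fun P hP =>
        (hinv0 P (Finset.mem_filter.mp hP).1).le)
      calc ∏ P ∈ T'.filter (fun P => ¬ P ∉ V₀), (1 - npow s hs0.ne' P)⁻¹
          ≤ ∏ P ∈ T'.filter (fun P => ¬ P ∉ V₀), (2 : ℝ) := by
            refine Finset.prod_le_prod (fun P hP =>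
              (hinv0 P (Finset.mem_filter.mp hP).1).le) fun P hP => ?_
            have h1 := hgs P (Finset.mem_filter.mp hP).1
            calc (1 - npow s hs0.ne' P)⁻¹ ≤ (1 / 2)⁻¹ := inv_anti₀ (by norm_num) (by linarith)
              _ = 2 := by norm_num
        _ = 2 ^ (T'.filter (fun P => ¬ P ∉ V₀)).card := by
            rw [Finset.prod_const]
        _ ≤ 2 ^ V₀.card := by
            refine pow_le_pow_right₀ (by norm_num) (Finset.card_le_card ?_)
            intro P hP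
            simpa using (Finset.mem_filter.mp hP).2
    have hmain : (∏ P ∈ T'.filter (· ∉ V₀), (1 - npow s hs0.ne' P)⁻¹) *
        Real.exp (-(4 * Bd)) ≤
        ∏ P ∈ T'.filter (· ∉ V₀), (1 + (cq S P : ℝ) ^ (-s) * (1 - 1 / (cq S P : ℝ))) := by
      have h1 : Real.exp (-(4 * Bd)) ≤
          ∏ P ∈ T'.filter (· ∉ V₀), Real.exp (-(4 * (cq S P : ℝ) ^ (-2 : ℝ))) := by
        rw [← Real.exp_sum, Real.exp_le_exp, Finset.sum_neg_distrib, ← Finset.mul_sum]
        have := hsq (T'.filter (· ∉ V₀)) fun P hP => hT'P P (Finset.mem_filter.mp hP).1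
        linarith
      calc _ ≤ (∏ P ∈ T'.filter (· ∉ V₀), (1 - npow s hs0.ne' P)⁻¹) *
            ∏ P ∈ T'.filter (· ∉ V₀), Real.exp (-(4 * (cq S P : ℝ) ^ (-2 : ℝ))) :=
            mul_le_mul_of_nonneg_left h1 (Finset.prod_nonneg fun P hP =>
              (hinv0 P (Finset.mem_filter.mp hP).1).le)
        _ = ∏ P ∈ T'.filter (· ∉ V₀), ((1 - npow s hs0.ne' P)⁻¹ *
              Real.exp (-(4 * (cq S P : ℝ) ^ (-2 : ℝ)))) := Finset.prod_mul_distrib.symm
        _ ≤ _ := by
            refine Finset.prod_le_prod (fun P hP => ?_) fun P hP => ?_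
            · exact mul_nonneg (hinv0 P (Finset.mem_filter.mp hP).1).le (Real.exp_pos _).le
            · exact factor_le (hg2 P (Finset.mem_filter.mp hP).1) hs1.le
    refine le_trans ?_ hmain
    have h2 : c1 / (s - 1) * (1 / 2) ^ V₀.card ≤
        ∏ P ∈ T'.filter (· ∉ V₀), (1 - npow s hs0.ne' P)⁻¹ := by
      have h3 := hlow2.trans hsplit
      have h4 : (0 : ℝ) < 2 ^ V₀.card := by positivity
      rw [one_div, inv_pow, ← div_eq_mul_inv, div_le_iff₀ h4]
      exact h3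
    calc c1 * Real.exp (-(4 * Bd)) * (1 / 2) ^ V₀.card / (s - 1)
        = c1 / (s - 1) * (1 / 2) ^ V₀.card * Real.exp (-(4 * Bd)) := by ring
      _ ≤ _ := mul_le_mul_of_nonneg_right h2 (Real.exp_pos _).le

end Main

end Vale.Agent.P011.H228
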