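import Vale.Agent.P011.H228.EulerAbs

/-!
# Lower bound of the Euler product of a ring of `S`-integers of a function field

`S` a Dedekind domain, finite and free over `F[X]`, `F` a finite field (e.g. the integral closure
of `F[X]` in a finite separable extension of `F(X)`); the unit group may be infinite.
-/

namespace Vale.Agent.P011.H228

open Submodule Polynomial Module

section

variable {F : Type*} [Field F] [Finite F]

theorem hasFiniteQuotients_polynomial : Ring.HasFiniteQuotients F[X] where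
  finiteQuotient {I} hI := by
    obtain ⟨p, rfl⟩ := IsPrincipal.principal I
    have hp : p ≠ 0 := fun h => hI (by simp [h])
    have h1 : FiniteDimensional F (AdjoinRoot p) := (AdjoinRoot.powerBasis hp).finite
    exact Module.finite_of_finite (R := F) (M := AdjoinRoot p)

theorem infinite_of_free (F : Type*) [Field F] (S : Type*) [CommRing S]
    [IsDedekindDomain S] [Algebra F[X] S] [Module.Free F[X] S] : Infinite S := by
  have : Nontrivial S := inferInstance
  exact Module.Free.infinite F[X] S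

theorem hasFiniteQuotients (F : Type*) [Field F] [Finite F] (S : Type*) [CommRing S]
    [IsDedekindDomain S] [Algebra F[X] S] [Module.Finite F[X] S] : Ring.HasFiniteQuotients S :=
  have := hasFiniteQuotients_polynomial (F := F)
  Ring.HasFiniteQuotients.of_module_finite F[X] S

variable {S : Type*} [CommRing S] [IsDedekindDomain S] [Algebra F[X] S] [Module.Finite F[X] S]
  [Module.Free F[X] S]

omit [Module.Free F[X] S] in
theorem card_span [Infinite S] {ι : Type*} [Finite ι] (b : Basis ι F[X] S) {x : S}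
    (hx : x ≠ 0) : cq S (Ideal.span {x}) = Nat.card F ^ (Algebra.norm F[X] x).natDegree := by
  let _ : Algebra F S := ((algebraMap F[X] S).comp (algebraMap F F[X])).toAlgebra
  have : IsScalarTower F F[X] S := IsScalarTower.of_algebraMap_eq fun _ => rfl
  have h1 : Finite (S ⧸ Ideal.span {x}) :=
    (hasFiniteQuotients F S).finiteQuotient (by simpa using hx)
  rw [cq_apply, ← finrank_quotient_span_eq_natDegree_norm (F := F) b hx]
  exact Module.natCard_eq_pow_finrank

variable (F) in
omit [Module.Free F[X] S] in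
theorem exists_card_eq_pow [Infinite S] (P : Ideal S) (hP : P ≠ ⊥) :
    ∃ j : ℕ, cq S P = Nat.card F ^ j := by
  let _ : Algebra F S := ((algebraMap F[X] S).comp (algebraMap F F[X])).toAlgebra
  have h1 : Finite (S ⧸ P) :=
    (hasFiniteQuotients F S).finiteQuotient hP
  exact ⟨finrank F (S ⧸ P), by rw [cq_apply]; exact Module.natCard_eq_pow_finrank⟩

omit [Finite F] in
theorem natDegree_det_le {n : Type*} [Fintype n] [DecidableEq n] (M : Matrix n n F[X]) (e : ℕ)
    (h : ∀ i j, (M i j).natDegree ≤ e) : M.det.natDegree ≤ Fintype.card n * e := by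
  rw [Matrix.det_apply]
  refine natDegree_sum_le_of_forall_le _ _ fun σ _ => ?_
  refine (natDegree_smul_le _ _).trans ?_
  refine (natDegree_prod_le _ _).trans ?_
  refine (Finset.sum_le_card_nsmul _ _ e fun i _ => h _ _).trans ?_
  simp

omit [Finite F] [IsDedekindDomain S] [Module.Finite F[X] S] [Module.Free F[X] S] in
theorem natDegree_norm_le {ι : Type*} [Fintype ι] (b : Basis ι F[X] S) :
    ∃ C : ℕ, ∀ (m : ℕ) (y : ι → F[X]), (∀ i, (y i).natDegree ≤ m) →
      (Algebra.norm F[X] (∑ i, y i • b i)).natDegree ≤ Fintype.card ι * (m + C) := by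
  classical
  refine ⟨∑ i, ∑ j, ∑ k, (Algebra.leftMulMatrix b (b i) j k).natDegree, fun m y hy => ?_⟩
  rw [Algebra.norm_eq_matrix_det b]
  refine natDegree_det_le _ _ fun j k => ?_
  rw [map_sum, Matrix.sum_apply]
  refine natDegree_sum_le_of_forall_le _ _ fun i _ => ?_
  rw [map_smul, Matrix.smul_apply, smul_eq_mul]
  refine natDegree_mul_le.trans (Nat.add_le_add (hy i) ?_)
  refine le_trans ?_ (Finset.single_le_sum (f := fun i => ∑ j, ∑ k,
    (Algebra.leftMulMatrix b (b i) j k).natDegree) (fun _ _ => Nat.zero_le _) (Finset.mem_univ i))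
  refine le_trans ?_ (Finset.single_le_sum (f := fun j => ∑ k,
    (Algebra.leftMulMatrix b (b i) j k).natDegree) (fun _ _ => Nat.zero_le _) (Finset.mem_univ j))
  exact Finset.single_le_sum (f := fun k =>
    (Algebra.leftMulMatrix b (b i) j k).natDegree) (fun _ _ => Nat.zero_le _) (Finset.mem_univ k)

omit [Finite F] [IsDedekindDomain S] [Module.Finite F[X] S] [Module.Free F[X] S] in
/-- coordinates of products -/
theorem exists_mul_bound {ι : Type*} [Fintype ι] (b : Basis ι F[X] S) :
    ∃ C : ℕ, ∀ (v x : S) (e m : ℕ), (∀ j, (b.repr v j).natDegree ≤ e) →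
      (∀ j, (b.repr x j).natDegree ≤ m) → ∀ i, (b.repr (v * x) i).natDegree ≤ e + m + C := by
  classical
  refine ⟨∑ i, ∑ j, ∑ k, (b.repr (b j * b k) i).natDegree, fun v x e m hv hx i => ?_⟩
  have h1 : v * x = ∑ j, ∑ k, (b.repr v j * b.repr x k) • (b j * b k) := by
    conv_lhs => rw [← b.sum_repr v, ← b.sum_repr x, Finset.sum_mul_sum]
    refine Finset.sum_congr rfl fun j _ => Finset.sum_congr rfl fun k _ => ?_
    rw [smul_mul_smul_comm]
  rw [h1, map_sum, Finsupp.finsetSum_apply]
  refine natDegree_sum_le_of_forall_le _ _ fun j _ => ?_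
  rw [map_sum, Finsupp.finsetSum_apply]
  refine natDegree_sum_le_of_forall_le _ _ fun k _ => ?_
  rw [map_smul, Finsupp.smul_apply, smul_eq_mul]
  refine natDegree_mul_le.trans (Nat.add_le_add (natDegree_mul_le.trans
    (Nat.add_le_add (hv j) (hx k))) ?_)
  refine le_trans ?_ (Finset.single_le_sum (f := fun i => ∑ j, ∑ k,
    (b.repr (b j * b k) i).natDegree) (fun _ _ => Nat.zero_le _) (Finset.mem_univ i))
  refine le_trans ?_ (Finset.single_le_sum (f := fun j => ∑ k,
    (b.repr (b j * b k) i).natDegree) (fun _ _ => Nat.zero_le _) (Finset.mem_univ j))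
  exact Finset.single_le_sum (f := fun k =>
    (b.repr (b j * b k) i).natDegree) (fun _ _ => Nat.zero_le _) (Finset.mem_univ k)

omit [Finite F] [IsDedekindDomain S] [Module.Finite F[X] S] [Module.Free F[X] S] in
/-- `X ^ M v` with `v ≠ 0` is not of the form `w - v x` with `w`, `x` small. -/
theorem pow_smul_ne {ι : Type*} [Fintype ι] (b : Basis ι F[X] S) {C : ℕ}
    (hC : ∀ (v x : S) (e m : ℕ), (∀ j, (b.repr v j).natDegree ≤ e) →
      (∀ j, (b.repr x j).natDegree ≤ m) → ∀ i, (b.repr (v * x) i).natDegree ≤ e + m + C)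
    {M m : ℕ} (hM : m + C < M) {v w x : S} (hv : v ≠ 0)
    (hw : ∀ j, (b.repr w j).natDegree ≤ m) (hx : ∀ j, (b.repr x j).natDegree ≤ m)
    (h : (X ^ M : F[X]) • v = w - v * x) : False := by
  classical
  set e := Finset.univ.sup (fun i => (b.repr v i).natDegree) with he
  have hle : ∀ i, (b.repr v i).natDegree ≤ e := fun i =>
    Finset.le_sup (f := fun i => (b.repr v i).natDegree) (Finset.mem_univ i)
  have hex : ∃ i, b.repr v i ≠ 0 ∧ (b.repr v i).natDegree = e := by
    obtain ⟨i0, hi0⟩ : ∃ i, b.repr v i ≠ 0 := by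
      by_contra h0
      push Not at h0
      exact hv (b.ext_elem fun i => by simpa using h0 i)
    rcases Nat.eq_zero_or_pos e with h0 | h0
    · exact ⟨i0, hi0, le_antisymm (hle i0) (h0 ▸ Nat.zero_le _)⟩
    · obtain ⟨i1, _, hi1⟩ := Finset.exists_mem_eq_sup (Finset.univ : Finset ι) ⟨i0, Finset.mem_univ _⟩
        (fun i => (b.repr v i).natDegree)
      refine ⟨i1, fun h2 => ?_, hi1.symm⟩
      rw [← he] at hi1
      simp only [h2, natDegree_zero] at hi1
      omega
  obtain ⟨i, hi0, hie⟩ := hex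
  have h1 := congrArg (fun z => (b.repr z i).natDegree) h
  simp only [map_smul, map_sub, Finsupp.smul_apply, Finsupp.sub_apply, smul_eq_mul] at h1
  rw [natDegree_X_pow_mul _ hi0, hie] at h1
  have h2 : (b.repr w i - b.repr (v * x) i).natDegree ≤ e + m + C := by
    refine (natDegree_sub_le _ _).trans (max_le ?_ (hC v x e m hle hx i))
    exact (hw i).trans (by omega)
  omega

/-- boxes -/
theorem exists_boxes [Infinite S] [DecidableEq (Ideal S)] {ι : Type*} [Fintype ι] [Nonempty ι]
    (b : Basis ι F[X] S) :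
    ∃ (C : ℕ) (B : ℕ → Finset S), (∀ m, ∀ x ∈ B m, x ≠ 0) ∧
      (∀ m, ((Nat.card F ^ Fintype.card ι : ℕ) : ℝ) ^ m ≤ (B m).card) ∧
      (∀ m, ∀ x ∈ B m, (cq S (Ideal.span {x}) : ℝ) ≤
        ((Nat.card F ^ Fintype.card ι : ℕ) : ℝ) ^ C *
          ((Nat.card F ^ Fintype.card ι : ℕ) : ℝ) ^ m) ∧
      ∀ m, ∀ x ∈ B m, ((B m).filter fun y => Ideal.span {y} = Ideal.span {x}).card ≤ 1 := by
  classical
  obtain ⟨C, hC⟩ := natDegree_norm_le b
  obtain ⟨C1, hC1⟩ := exists_mul_bound b
  have hfd : ∀ m, Finite (degreeLT F (m + 1)) := fun m =>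
    Finite.of_equiv _ (degreeLTEquiv F (m + 1)).toEquiv.symm
  have hcard : ∀ m, Nat.card (degreeLT F (m + 1)) = Nat.card F ^ (m + 1) := fun m => by
    rw [Nat.card_congr (degreeLTEquiv F (m + 1)).toEquiv, Nat.card_fun, Nat.card_fin]
  have hq : 1 < Nat.card F := Finite.one_lt_card
  set C2 : ℕ := ∑ i, (b.repr 1 i).natDegree with hC2
  let g : ∀ m, (ι → degreeLT F (m + 1)) → S := fun m y => ∑ i, (y i : F[X]) • b i
  let f : ∀ m, (ι → degreeLT F (m + 1)) → S := fun m y =>
    (X ^ (m + (C1 + 1)) : F[X]) • (1 : S) + g m y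
  have hgr : ∀ m y i, b.repr (g m y) i = (y i : F[X]) := fun m y i => by
    simp only [g]
    rw [b.repr_sum_self]
  have hgd : ∀ m y i, (b.repr (g m y) i).natDegree ≤ m := fun m y i => by
    rw [hgr]
    have h3 := (y i).2
    rw [mem_degreeLT] at h3
    by_cases h4 : (y i : F[X]) = 0
    · rw [h4, natDegree_zero]
      exact Nat.zero_le _
    · exact Nat.lt_succ_iff.mp ((natDegree_lt_iff_degree_lt h4).mpr h3)
  have hf : ∀ m, Function.Injective (f m) := by
    intro m y y' hyy
    have h1 : g m y = g m y' := add_left_cancel hyy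
    funext i
    apply Subtype.ext
    rw [← hgr m y i, ← hgr m y' i, h1]
  have hfin : ∀ m, Finite (ι → degreeLT F (m + 1)) := fun m => inferInstance
  let B : ℕ → Finset S := fun m => (Set.toFinite (Set.range (f m))).toFinset
  have hmemB : ∀ m x, x ∈ B m ↔ ∃ y, f m y = x := fun m x => by
    simp only [B, Set.Finite.mem_toFinset, Set.mem_range]
  have hne : ∀ m y, f m y ≠ 0 := by
    intro m y h0
    refine pow_smul_ne b hC1 (M := m + (C1 + 1)) (m := m) (v := 1) (w := 0) (x := g m y)
      (by omega) one_ne_zero (fun j => by simp) (hgd m y) ?_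
    rw [one_mul, zero_sub]
    exact eq_neg_of_add_eq_zero_left h0
  refine ⟨C1 + 1 + C2 + C, B, fun m x hx => ?_, fun m => ?_, fun m x hx => ?_, fun m x hx => ?_⟩
  · obtain ⟨y, rfl⟩ := (hmemB m x).mp hx
    exact hne m y
  · have h1 : (B m).card = (Nat.card F ^ (m + 1)) ^ Fintype.card ι := by
      simp only [B]
      rw [← Nat.card_eq_card_finite_toFinset, Nat.card_range_of_injective (hf m), Nat.card_pi]
      simp [hcard]
    have h2 : (Nat.card F ^ Fintype.card ι) ^ m ≤ (B m).card := by
      rw [h1, ← pow_mul, ← pow_mul]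
      refine Nat.pow_le_pow_right (by omega) ?_
      rw [mul_comm]
      exact Nat.mul_le_mul_right _ (Nat.le_succ m)
    exact_mod_cast h2
  · obtain ⟨y, rfl⟩ := (hmemB m x).mp hx
    rw [card_span b (hne m y)]
    have h1 : (Algebra.norm F[X] (f m y)).natDegree ≤
        Fintype.card ι * (m + (C1 + 1) + C2 + C) := by
      have h2 : f m y = ∑ i, (b.repr (f m y) i) • b i := (b.sum_repr _).symm
      rw [h2]
      refine hC (m + (C1 + 1) + C2) _ fun i => ?_
      simp only [f, map_add, map_smul, Finsupp.add_apply, Finsupp.smul_apply, smul_eq_mul]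
      refine (natDegree_add_le _ _).trans (max_le ?_ ((hgd m y i).trans (by omega)))
      refine natDegree_mul_le.trans ?_
      rw [natDegree_X_pow]
      refine Nat.add_le_add_left ?_ _
      exact Finset.single_le_sum (f := fun i => (b.repr 1 i).natDegree)
        (fun _ _ => Nat.zero_le _) (Finset.mem_univ i)
    have h2 : Nat.card F ^ (Algebra.norm F[X] (f m y)).natDegree ≤
        (Nat.card F ^ Fintype.card ι) ^ (C1 + 1 + C2 + C) *
          (Nat.card F ^ Fintype.card ι) ^ m := by
      refine (Nat.pow_le_pow_right (by omega) h1).trans (le_of_eq ?_)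
      rw [← pow_add, ← pow_mul]
      congr 2
      ring
    exact_mod_cast h2
  · obtain ⟨y, rfl⟩ := (hmemB m x).mp hx
    rw [Finset.card_le_one]
    intro a ha a' ha'
    rw [Finset.mem_filter] at ha ha'
    have key : ∀ a ∈ B m, Ideal.span {a} = Ideal.span {f m y} → a = f m y := by
      intro a ha h
      obtain ⟨z, rfl⟩ := (hmemB m a).mp ha
      have h1 : f m z ∈ Ideal.span {f m y} := by
        rw [← h]
        exact Ideal.mem_span_singleton_self _
      obtain ⟨w, hw⟩ := Ideal.mem_span_singleton'.mp h1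
      by_contra hne'
      have hv : w - 1 ≠ 0 := by
        intro h0
        rw [sub_eq_zero] at h0
        rw [h0, one_mul] at hw
        exact hne' hw.symm
      refine pow_smul_ne b hC1 (M := m + (C1 + 1)) (m := m) (v := w - 1)
        (w := g m z - g m y) (x := g m y) (by omega) hv (fun j => ?_) (hgd m y) ?_
      · rw [map_sub, Finsupp.sub_apply]
        exact (natDegree_sub_le _ _).trans (max_le (hgd m z j) (hgd m y j))
      · have h2 : w * ((X ^ (m + (C1 + 1)) : F[X]) • (1 : S) + g m y) =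
            (X ^ (m + (C1 + 1)) : F[X]) • (1 : S) + g m z := hw
        rw [mul_add, mul_smul_comm, mul_one] at h2
        rw [smul_sub]
        linear_combination h2
    rw [key a ha.1 ha.2, key a' ha'.1 ha'.2]

/-- the number of primes of norm `q ^ j` -/
theorem card_primes_le [Infinite S] {ι : Type*} [Fintype ι] [Nonempty ι] (b : Basis ι F[X] S)
    (j : ℕ) (hj : 1 ≤ j) (T : Finset (Ideal S))
    (hT : ∀ P ∈ T, (P.IsPrime ∧ P ≠ ⊥) ∧ cq S P = Nat.card F ^ j) :
    T.card ≤ Fintype.card ι * Nat.card F ^ j := by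
  classical
  have := Fintype.ofFinite F
  have hq : 1 < Nat.card F := Finite.one_lt_card
  set p : F[X] := X ^ (Nat.card F ^ j) - X with hp
  have hdeg : p.natDegree = Nat.card F ^ j := by
    rw [hp]
    exact FiniteField.X_pow_card_sub_X_natDegree_eq F (Nat.one_lt_pow (by omega) hq)
  have hp0 : p ≠ 0 := by
    intro h
    rw [h, natDegree_zero] at hdeg
    have : 0 < Nat.card F ^ j := Nat.pow_pos (by omega)
    omega
  set y : S := algebraMap F[X] S p with hy
  have hinj : Function.Injective (algebraMap F[X] S) := FaithfulSMul.algebraMap_injective _ _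
  have hy0 : y ≠ 0 := fun h => hp0 (hinj (by rw [← hy, h, map_zero]))
  have hmem : ∀ P ∈ T, y ∈ P := by
    intro P hP
    obtain ⟨⟨hPp, hP0⟩, hc⟩ := hT P hP
    have hfq : Finite (S ⧸ P) :=
      (hasFiniteQuotients F S).finiteQuotient hP0
    have hmax : P.IsMaximal := hPp.isMaximal hP0
    let _ : Field (S ⧸ P) := Ideal.Quotient.field P
    have := Fintype.ofFinite (S ⧸ P)
    rw [← Ideal.Quotient.eq_zero_iff_mem, hy, hp, map_sub, map_sub, map_pow, map_pow, sub_eq_zero]
    have h1 : Fintype.card (S ⧸ P) = Nat.card F ^ j := by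
      rw [← hc, cq_apply, Nat.card_eq_fintype_card]
    rw [← h1]
    exact FiniteField.pow_card _
  have hdvd : ∏ P ∈ T, P ∣ Ideal.span {y} := by
    refine Finset.prod_primes_dvd _ (fun P hP => Ideal.prime_of_isPrime (hT P hP).1.2 (hT P hP).1.1)
      fun P hP => ?_
    rw [Ideal.dvd_iff_le, Ideal.span_singleton_le_iff_mem]
    exact hmem P hP
  have h1 : cq S (∏ P ∈ T, P) = Nat.card F ^ (j * T.card) := by
    rw [map_prod, Finset.prod_congr rfl fun P hP => (hT P hP).2, Finset.prod_const, ← pow_mul]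
  have h2 : cq S (Ideal.span {y}) = Nat.card F ^ (Nat.card F ^ j * Fintype.card ι) := by
    rw [card_span b hy0, hy, Algebra.norm_algebraMap_of_basis b, natDegree_pow, hdeg, mul_comm]
  have h3 : cq S (∏ P ∈ T, P) ≤ cq S (Ideal.span {y}) := by
    refine Nat.le_of_dvd ?_ (map_dvd (cq S) hdvd)
    rw [h2]
    exact Nat.pow_pos (by omega)
  rw [h1, h2] at h3
  have h4 := (Nat.pow_le_pow_iff_right hq).mp h3
  calc T.card ≤ j * T.card := Nat.le_mul_of_pos_left _ hj
    _ ≤ Nat.card F ^ j * Fintype.card ι := h4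
    _ = _ := mul_comm _ _

/-- boundedness of `∑ N_P ^ (-2)` -/
theorem sum_sq_le [Infinite S] {ι : Type*} [Fintype ι] [Nonempty ι] (b : Basis ι F[X] S)
    (T : Finset (Ideal S)) (hT : ∀ P ∈ T, P.IsPrime ∧ P ≠ ⊥) :
    ∑ P ∈ T, (cq S P : ℝ) ^ (-2 : ℝ) ≤ 2 * Fintype.card ι := by
  classical
  have hfin := (hasFiniteQuotients F S)
  have hq : 1 < Nat.card F := Finite.one_lt_card
  have hqr : (2 : ℝ) ≤ Nat.card F := by exact_mod_cast hq
  have hj : ∀ P : Ideal S, ∃ j, P ≠ ⊥ → cq S P = Nat.card F ^ j := fun P => by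
    by_cases h : P = ⊥
    · exact ⟨0, fun h' => absurd h h'⟩
    · obtain ⟨j, hj⟩ := exists_card_eq_pow F P h
      exact ⟨j, fun _ => hj⟩
  choose j hj using hj
  have hj1 : ∀ P ∈ T, 1 ≤ j P := by
    intro P hP
    have h1 := two_le_cq (fun I hI => hfin.finiteQuotient hI) (hT P hP).1 (hT P hP).2
    rw [hj P (hT P hP).2] at h1
    by_contra h
    have : j P = 0 := by omega
    rw [this] at h1
    simp at h1
  set E := T.sup j
  have h1 : ∑ P ∈ T, (cq S P : ℝ) ^ (-2 : ℝ) =
      ∑ i ∈ Finset.range (E + 1), ∑ P ∈ T with j P = i, (cq S P : ℝ) ^ (-2 : ℝ) := by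
    rw [Finset.sum_fiberwise_of_maps_to]
    intro P hP
    rw [Finset.mem_range]
    exact Nat.lt_succ_of_le (Finset.le_sup hP)
  rw [h1]
  have h2 : ∀ i ∈ Finset.range (E + 1), ∑ P ∈ T with j P = i, (cq S P : ℝ) ^ (-2 : ℝ) ≤
      Fintype.card ι * (1 / 2 : ℝ) ^ i := by
    intro i _
    rcases Nat.eq_zero_or_pos i with h0 | h0
    · have : Finset.filter (fun P => j P = i) T = ∅ := by
        rw [Finset.filter_eq_empty_iff]
        intro P hP h
        have := hj1 P hP
        omega
      rw [this, Finset.sum_empty]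
      positivity
    · have h3 := card_primes_le (F := F) b i h0 (T.filter fun P => j P = i) fun P hP => by
        rw [Finset.mem_filter] at hP
        exact ⟨hT P hP.1, by rw [hj P (hT P hP.1).2, hP.2]⟩
      have hqi : (0 : ℝ) < (Nat.card F : ℝ) ^ i := by positivity
      calc ∑ P ∈ T with j P = i, (cq S P : ℝ) ^ (-2 : ℝ)
          = ∑ P ∈ T with j P = i, ((Nat.card F : ℝ) ^ i) ^ (-2 : ℝ) := by
            refine Finset.sum_congr rfl fun P hP => ?_
            rw [Finset.mem_filter] at hP
            rw [hj P (hT P hP.1).2, hP.2, Nat.cast_pow]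
        _ = ((T.filter fun P => j P = i).card : ℝ) * ((Nat.card F : ℝ) ^ i) ^ (-2 : ℝ) := by
            rw [Finset.sum_const, nsmul_eq_mul]
        _ ≤ ((Fintype.card ι * Nat.card F ^ i : ℕ) : ℝ) * ((Nat.card F : ℝ) ^ i) ^ (-2 : ℝ) := by
            refine mul_le_mul_of_nonneg_right (by exact_mod_cast h3) (by positivity)
        _ = Fintype.card ι * (1 / (Nat.card F : ℝ)) ^ i := by
            rw [Real.rpow_neg hqi.le, Real.rpow_two, one_div, inv_pow]
            push_cast
            field_simp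
        _ ≤ Fintype.card ι * (1 / 2 : ℝ) ^ i := by
            refine mul_le_mul_of_nonneg_left ?_ (by positivity)
            exact pow_le_pow_left₀ (by positivity)
              (one_div_le_one_div_of_le (by norm_num) hqr) i
  refine (Finset.sum_le_sum h2).trans ?_
  rw [← Finset.mul_sum, mul_comm (2 : ℝ)]
  refine mul_le_mul_of_nonneg_left ?_ (by positivity)
  have h3 : Summable fun i : ℕ => (1 / 2 : ℝ) ^ i := summable_geometric_two
  calc ∑ i ∈ Finset.range (E + 1), (1 / 2 : ℝ) ^ i ≤ ∑' i : ℕ, (1 / 2 : ℝ) ^ i :=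
        h3.sum_le_tsum _ fun i _ => by positivity
    _ = 2 := tsum_geometric_two

end

/-- **Lower bound of the Euler product over a function field.** -/
theorem euler_ff (F : Type*) [Field F] [Finite F] {S : Type*} [CommRing S] [IsDedekindDomain S]
    [Algebra F[X] S] [Module.Finite F[X] S] [Module.Free F[X] S]
    (V₀ : Finset (Ideal S)) :
    ∃ c : ℝ, 0 < c ∧ ∀ s : ℝ, 1 < s → s ≤ 2 → ∃ T : Finset (Ideal S),
      (∀ P ∈ T, P.IsPrime ∧ P ≠ ⊥ ∧ P ∉ V₀) ∧
      c / (s - 1) ≤ ∏ P ∈ T, (1 + (Nat.card (S ⧸ P) : ℝ) ^ (-s) *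
        (1 - 1 / (Nat.card (S ⧸ P) : ℝ))) := by
  classical
  have hinf : Infinite S := infinite_of_free F S
  have hfin := (hasFiniteQuotients F S)
  let b := Module.Free.chooseBasis F[X] S
  have hne : Nonempty (Module.Free.ChooseBasisIndex F[X] S) := b.index_nonempty
  obtain ⟨C, B, h0, hc, hN, h1⟩ := exists_boxes (F := F) b
  have hq : 1 < Nat.card F := Finite.one_lt_card
  have hQ : (1 : ℝ) < ((Nat.card F ^ Fintype.card (Module.Free.ChooseBasisIndex F[X] S) : ℕ) : ℝ) := by
    exact_mod_cast Nat.one_lt_pow Fintype.card_ne_zero hq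
  have := euler_lower (S := S) (fun I hI => hfin.finiteQuotient hI) (c := 1)
    (C := ((Nat.card F ^ Fintype.card (Module.Free.ChooseBasisIndex F[X] S) : ℕ) : ℝ) ^ C)
    hQ one_pos (one_le_pow₀ hQ.le) B one_pos h1 h0 (fun m => by simpa using hc m) hN
    (fun T hT => sum_sq_le (F := F) b T hT) V₀
  exact this

end Vale.Agent.P011.H228
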