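import Mathlib

/-!
# Polynomial maps without constant term between modules (basis free)

`IsPoly K V W d Φ`: `Φ : V → W` is a finite sum of maps `x ↦ (φ₁ x ⋯ φ_m x) • w` with `1 ≤ m ≤ d`,
`φ_i` linear forms on `V`, `w ∈ W`.
-/

namespace Vale.Agent.P011.H228

open Module

section Def

variable (K : Type*) [Field K] (V : Type*) [AddCommGroup V] [Module K V]
  (W : Type*) [AddCommGroup W] [Module K W]

/-- The submodule of polynomial maps of degree `≤ d` without constant term. -/
def polySub (d : ℕ) : Submodule K (V → W) :=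
  Submodule.span K {Ψ | ∃ m : ℕ, 1 ≤ m ∧ m ≤ d ∧ ∃ (φ : Fin m → Dual K V) (w : W),
    Ψ = fun x => (∏ i, φ i x) • w}

/-- `Φ : V → W` is polynomial of degree `≤ d` without constant term. -/
def IsPoly (d : ℕ) (Φ : V → W) : Prop := Φ ∈ polySub K V W d

end Def

variable {K : Type*} [Field K] {V : Type*} [AddCommGroup V] [Module K V]
  {W : Type*} [AddCommGroup W] [Module K W]

theorem IsPoly.basic {d m : ℕ} (h1 : 1 ≤ m) (hd : m ≤ d) (φ : Fin m → Dual K V) (w : W) :
    IsPoly K V W d (fun x => (∏ i, φ i x) • w) :=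
  Submodule.subset_span ⟨m, h1, hd, φ, w, rfl⟩

theorem IsPoly.mono {d e : ℕ} (h : d ≤ e) {Φ : V → W} (hΦ : IsPoly K V W d Φ) :
    IsPoly K V W e Φ := by
  refine Submodule.span_mono ?_ hΦ
  rintro _ ⟨m, h1, hd, φ, w, rfl⟩
  exact ⟨m, h1, hd.trans h, φ, w, rfl⟩

theorem IsPoly.zero (d : ℕ) : IsPoly K V W d (0 : V → W) := Submodule.zero_mem _

theorem IsPoly.add {d : ℕ} {Φ Ψ : V → W} (hΦ : IsPoly K V W d Φ) (hΨ : IsPoly K V W d Ψ) :
    IsPoly K V W d (Φ + Ψ) := Submodule.add_mem _ hΦ hΨ

theorem IsPoly.neg {d : ℕ} {Φ : V → W} (hΦ : IsPoly K V W d Φ) :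
    IsPoly K V W d (-Φ) := Submodule.neg_mem _ hΦ

theorem IsPoly.sub {d : ℕ} {Φ Ψ : V → W} (hΦ : IsPoly K V W d Φ) (hΨ : IsPoly K V W d Ψ) :
    IsPoly K V W d (Φ - Ψ) := Submodule.sub_mem _ hΦ hΨ

theorem IsPoly.smul {d : ℕ} (c : K) {Φ : V → W} (hΦ : IsPoly K V W d Φ) :
    IsPoly K V W d (c • Φ) := Submodule.smul_mem _ c hΦ

theorem IsPoly.sum {ι : Type*} (s : Finset ι) {d : ℕ} {Φ : ι → V → W}
    (hΦ : ∀ i ∈ s, IsPoly K V W d (Φ i)) : IsPoly K V W d (∑ i ∈ s, Φ i) :=
  Submodule.sum_mem _ hΦ

theorem IsPoly.apply_zero {d : ℕ} {Φ : V → W} (hΦ : IsPoly K V W d Φ) : Φ 0 = 0 := by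
  induction hΦ using Submodule.span_induction with
  | mem x h =>
    obtain ⟨m, h1, _, φ, w, rfl⟩ := h
    have : (∏ i : Fin m, φ i 0) = 0 := by
      apply Finset.prod_eq_zero (Finset.mem_univ (⟨0, h1⟩ : Fin m))
      simp
    show (∏ i : Fin m, φ i 0) • w = 0
    rw [this, zero_smul]
  | zero => rfl
  | add x y _ _ hx hy => simp [hx, hy]
  | smul a x _ hx => simp [hx]

/-- composition with a linear map on the left -/
theorem IsPoly.comp_left {W' : Type*} [AddCommGroup W'] [Module K W'] {d : ℕ} {Φ : V → W}
    (hΦ : IsPoly K V W d Φ) (l : W →ₗ[K] W') : IsPoly K V W' d (fun x => l (Φ x)) := by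
  induction hΦ using Submodule.span_induction with
  | mem x h =>
    obtain ⟨m, h1, hd, φ, w, rfl⟩ := h
    have : (fun x : V => l ((∏ i, φ i x) • w)) = fun x => (∏ i, φ i x) • l w := by
      funext x; simp
    rw [this]
    exact IsPoly.basic h1 hd φ (l w)
  | zero =>
    have : (fun x : V => l ((0 : V → W) x)) = 0 := by funext x; simp
    rw [this]; exact IsPoly.zero d
  | add x y _ _ hx hy =>
    have : (fun v : V => l ((x + y) v)) = (fun v => l (x v)) + (fun v => l (y v)) := by
      funext v; simp
    rw [this]; exact hx.add hy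
  | smul a x _ hx =>
    have : (fun v : V => l ((a • x) v)) = a • (fun v => l (x v)) := by
      funext v; simp
    rw [this]; exact hx.smul a

/-- composition with a linear map on the right -/
theorem IsPoly.comp_right {V' : Type*} [AddCommGroup V'] [Module K V'] {d : ℕ} {Φ : V → W}
    (hΦ : IsPoly K V W d Φ) (l : V' →ₗ[K] V) : IsPoly K V' W d (fun x => Φ (l x)) := by
  induction hΦ using Submodule.span_induction with
  | mem x h =>
    obtain ⟨m, h1, hd, φ, w, rfl⟩ := h
    exact IsPoly.basic h1 hd (fun i => (φ i).comp l) w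
  | zero => exact IsPoly.zero d
  | add x y _ _ hx hy => exact hx.add hy
  | smul a x _ hx => exact hx.smul a

/-- a linear map out of a finite dimensional space is polynomial of degree `≤ 1` -/
theorem IsPoly.linear [FiniteDimensional K V] (l : V →ₗ[K] W) :
    IsPoly K V W 1 (fun x => l x) := by
  classical
  let b := Module.finBasis K V
  have : (fun x => l x) = ∑ i, fun x => (∏ _j : Fin 1, b.coord i x) • l (b i) := by
    funext x
    simp only [Finset.sum_apply]
    conv_lhs => rw [← b.sum_repr x, map_sum]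
    refine Finset.sum_congr rfl fun i _ => ?_
    simp
  rw [this]
  exact IsPoly.sum _ fun i _ => IsPoly.basic le_rfl le_rfl _ _

/-- products of polynomial maps with values in an algebra -/
theorem IsPoly.mul {A : Type*} [Ring A] [Algebra K A] {d e : ℕ} {Φ Ψ : V → A}
    (hΦ : IsPoly K V A d Φ) (hΨ : IsPoly K V A e Ψ) :
    IsPoly K V A (d + e) (fun x => Φ x * Ψ x) := by
  induction hΦ using Submodule.span_induction with
  | mem x h =>
    obtain ⟨m, h1, hd, φ, w, rfl⟩ := h
    induction hΨ using Submodule.span_induction with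
    | mem y h' =>
      obtain ⟨m', h1', hd', φ', w', rfl⟩ := h'
      have : (fun x : V => ((∏ i, φ i x) • w) * ((∏ i, φ' i x) • w')) =
          fun x => (∏ i, (Fin.append φ φ') i x) • (w * w') := by
        funext x
        rw [smul_mul_smul_comm, Fin.prod_univ_add]
        simp
      rw [this]
      exact IsPoly.basic (by omega) (by omega) _ _
    | zero =>
      have : (fun x : V => ((∏ i, φ i x) • w) * ((0 : V → A) x)) = 0 := by
        funext x; simp
      rw [this]; exact IsPoly.zero _
    | add x y _ _ hx hy =>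
      have : (fun v : V => ((∏ i, φ i v) • w) * ((x + y) v)) =
          (fun v => ((∏ i, φ i v) • w) * (x v)) + (fun v => ((∏ i, φ i v) • w) * (y v)) := by
        funext v; simp [mul_add]
      rw [this]; exact hx.add hy
    | smul a x _ hx =>
      have : (fun v : V => ((∏ i, φ i v) • w) * ((a • x) v)) =
          a • (fun v => ((∏ i, φ i v) • w) * (x v)) := by
        funext v; simp
      rw [this]; exact hx.smul a
  | zero =>
    have : (fun x : V => ((0 : V → A) x) * Ψ x) = 0 := by
      funext x; simp
    rw [this]; exact IsPoly.zero _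
  | add x y _ _ hx hy =>
    have : (fun v : V => ((x + y) v) * Ψ v) =
        (fun v => x v * Ψ v) + (fun v => y v * Ψ v) := by
      funext v; simp [add_mul]
    rw [this]; exact hx.add hy
  | smul a x _ hx =>
    have : (fun v : V => ((a • x) v) * Ψ v) = a • (fun v => x v * Ψ v) := by
      funext v; simp
    rw [this]; exact hx.smul a

theorem IsPoly.prod {A : Type*} [CommRing A] [Algebra K A] {ι : Type*} (s : Finset ι)
    (hs : s.Nonempty) (d : ι → ℕ) {Φ : ι → V → A} (hΦ : ∀ i ∈ s, IsPoly K V A (d i) (Φ i)) :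
    IsPoly K V A (∑ i ∈ s, d i) (fun x => ∏ i ∈ s, Φ i x) := by
  classical
  induction hs using Finset.Nonempty.cons_induction with
  | singleton a => simpa using hΦ a (by simp)
  | cons a s ha hs ih =>
    simp only [Finset.prod_cons, Finset.sum_cons]
    exact (hΦ a (by simp)).mul (ih fun i hi => hΦ i (by simp [hi]))

/-- the map `x ↦ Φ x • Ψ x` -/
theorem IsPoly.smul_map {d e : ℕ} {Φ : V → K} {Ψ : V → W}
    (hΦ : IsPoly K V K d Φ) (hΨ : IsPoly K V W e Ψ) :
    IsPoly K V W (d + e) (fun x => Φ x • Ψ x) := by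
  induction hΦ using Submodule.span_induction with
  | mem x h =>
    obtain ⟨m, h1, hd, φ, w, rfl⟩ := h
    induction hΨ using Submodule.span_induction with
    | mem y h' =>
      obtain ⟨m', h1', hd', φ', w', rfl⟩ := h'
      have : (fun x : V => ((∏ i, φ i x) • w) • ((∏ i, φ' i x) • w')) =
          fun x => (∏ i, (Fin.append φ φ') i x) • (w • w') := by
        funext x
        rw [Fin.prod_univ_add]
        simp [smul_smul]
        congr 1
        ring
      rw [this]
      exact IsPoly.basic (by omega) (by omega) _ _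
    | zero =>
      have : (fun x : V => ((∏ i, φ i x) • w) • ((0 : V → W) x)) = 0 := by
        funext x; simp
      rw [this]; exact IsPoly.zero _
    | add x y _ _ hx hy =>
      have : (fun v : V => ((∏ i, φ i v) • w) • ((x + y) v)) =
          (fun v => ((∏ i, φ i v) • w) • (x v)) + (fun v => ((∏ i, φ i v) • w) • (y v)) := by
        funext v; simp [smul_add]
      rw [this]; exact hx.add hy
    | smul a x _ hx =>
      have : (fun v : V => ((∏ i, φ i v) • w) • ((a • x) v)) =
          a • (fun v => ((∏ i, φ i v) • w) • (x v)) := by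
        funext v
        simp only [Pi.smul_apply, smul_eq_mul, smul_smul]
        congr 1
        ring
      rw [this]; exact hx.smul a
  | zero =>
    have : (fun x : V => ((0 : V → K) x) • Ψ x) = 0 := by
      funext x; simp
    rw [this]; exact IsPoly.zero _
  | add x y _ _ hx hy =>
    have : (fun v : V => ((x + y) v) • Ψ v) =
        (fun v => x v • Ψ v) + (fun v => y v • Ψ v) := by
      funext v; simp [add_smul]
    rw [this]; exact hx.add hy
  | smul a x _ hx =>
    have : (fun v : V => ((a • x) v) • Ψ v) = a • (fun v => x v • Ψ v) := by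
      funext v; simp [smul_smul]
    rw [this]; exact hx.smul a

/-- a quadratic map `x ↦ B x x` -/
theorem IsPoly.bilin [FiniteDimensional K V] (B : V →ₗ[K] V →ₗ[K] W) :
    IsPoly K V W 2 (fun x => B x x) := by
  classical
  let b := Module.finBasis K V
  have : (fun x => B x x) = ∑ i, fun x => (b.coord i x) • B (b i) x := by
    funext x
    simp only [Finset.sum_apply]
    conv_lhs => rw [show B x = ∑ i, (b.coord i x) • B (b i) by
      conv_lhs => rw [← b.sum_repr x, map_sum]
      refine Finset.sum_congr rfl fun i _ => ?_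
      simp]
    simp
  rw [this]
  refine IsPoly.sum _ fun i _ => ?_
  exact IsPoly.smul_map (d := 1) (e := 1) (IsPoly.linear (b.coord i)) (IsPoly.linear (B (b i)))

/-- restriction of scalars (the source is replaced by a finite dimensional space over the small
field) -/
theorem IsPoly.restrict {F : Type*} [Field F] [Algebra F K] [Module F V] [IsScalarTower F K V]
    [Module F W] [IsScalarTower F K W]
    {V' : Type*} [AddCommGroup V'] [Module F V'] [FiniteDimensional F V'] (l : V' →ₗ[F] V)
    {d : ℕ} {Φ : V → W} (hΦ : IsPoly K V W d Φ) :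
    IsPoly F V' W d (fun x => Φ (l x)) := by
  induction hΦ using Submodule.span_induction with
  | mem x h =>
    obtain ⟨m, h1, hd, φ, w, rfl⟩ := h
    have h2 : IsPoly F V' K (∑ _i : Fin m, 1) (fun x => ∏ i : Fin m, φ i (l x)) := by
      refine IsPoly.prod Finset.univ ?_ (fun _ => 1) fun i _ => ?_
      · exact ⟨⟨0, h1⟩, Finset.mem_univ _⟩
      · exact IsPoly.linear (((φ i).restrictScalars F).comp l)
    have h3 := (h2.comp_left ((LinearMap.toSpanSingleton K W w).restrictScalars F))
    have h4 : m = ∑ _i : Fin m, 1 := by simp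
    refine IsPoly.mono (h4.symm.le.trans hd) ?_
    simpa using h3
  | zero => exact IsPoly.zero _
  | add x y _ _ hx hy => exact hx.add hy
  | smul a x _ hx =>
    exact hx.comp_left ((LinearMap.lsmul K W a).restrictScalars F)

/-- the determinant of a matrix of linear forms is polynomial -/
theorem IsPoly.det {A : Type*} [CommRing A] [Algebra K A] [FiniteDimensional K V]
    {n : Type*} [Fintype n] [DecidableEq n] [Nonempty n] (f : V →ₗ[K] Matrix n n A) :
    IsPoly K V A (Fintype.card n) (fun x => (f x).det) := by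
  have : (fun x => (f x).det) = ∑ σ : Equiv.Perm n, fun x =>
      ((Equiv.Perm.sign σ : ℤ) : K) • ∏ i, f x (σ i) i := by
    funext x
    rw [Matrix.det_apply]
    simp only [Finset.sum_apply]
    refine Finset.sum_congr rfl fun σ _ => ?_
    rcases Int.units_eq_one_or (Equiv.Perm.sign σ) with h | h <;> simp [h]
  rw [this]
  refine IsPoly.sum _ fun σ _ => IsPoly.smul _ ?_
  have h2 := IsPoly.prod (K := K) (V := V) (A := A) (Finset.univ : Finset n)
    Finset.univ_nonempty (fun _ => 1) (Φ := fun i x => f x (σ i) i) fun i _ => by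
      exact IsPoly.linear (K := K) (V := V) (W := A)
        (((LinearMap.proj i : (n → A) →ₗ[K] A).comp
          (LinearMap.proj (σ i) : (n → n → A) →ₗ[K] (n → A))).comp
            ((Matrix.ofLinearEquiv K).symm.toLinearMap.comp f))
  simpa using h2

end Vale.Agent.P011.H228
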